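import Crest.Agent.X212.Sob92.Der

/-!
# X212 / Prm93 / Js (helper93): jointly smooth families `f : T → M → N`

`JS I O f` : `f` is jointly smooth on `O × M`; `pd f t x` : derivative in the parameter.
`JS` is closed under `pd` and `dv`, and the two commute.
-/

set_option autoImplicit false
set_option linter.unusedSectionVars false
noncomputable section
open scoped Manifold ContDiff Topology
open Set Filter Function

namespace Crest.Agent.X212.Prm93
open Sob92

variable {E H : Type*} [NormedAddCommGroup E] [NormedSpace ℝ E] [TopologicalSpace H]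
  {I : ModelWithCorners ℝ E H} {M : Type*} [TopologicalSpace M] [ChartedSpace H M]
  {T : Type*} [NormedAddCommGroup T] [NormedSpace ℝ T]
  {N N' N'' : Type*} [NormedAddCommGroup N] [NormedSpace ℝ N] [NormedAddCommGroup N']
  [NormedSpace ℝ N'] [NormedAddCommGroup N''] [NormedSpace ℝ N'']

variable (I) in
/-- jointly smooth at `(t, x)` -/
abbrev JAt (f : T → M → N) (t : T) (x : M) : Prop :=
  ContMDiffAt (𝓘(ℝ, T).prod I) 𝓘(ℝ, N) ∞ (fun z : T × M => f z.1 z.2) (t, x)

variable (I) in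
/-- jointly smooth on `O × M` -/
def JS (O : Set T) (f : T → M → N) : Prop := ∀ t ∈ O, ∀ x, JAt I f t x

/-- the derivative in the parameter -/
def pd (f : T → M → N) : T → M → T →L[ℝ] N := fun t x => fderiv ℝ (fun s => f s x) t

variable {f : T → M → N} {g : T → M → N'} {t : T} {x : M} {O : Set T}

theorem JAt.right (h : JAt I f t x) : ContMDiffAt I 𝓘(ℝ, N) ∞ (f t) x :=
  ContMDiffAt.comp (g := fun z : T × M => f z.1 z.2) (f := fun y => (t, y)) x h
    (contMDiffAt_const.prodMk contMDiffAt_id)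

theorem JAt.left (h : JAt I f t x) : ContDiffAt ℝ ∞ (fun s => f s x) t :=
  (ContMDiffAt.comp (g := fun z : T × M => f z.1 z.2) (f := fun s => (s, x)) t h
    (contMDiffAt_id.prodMk contMDiffAt_const)).contDiffAt

theorem JAt.hasFDerivAt (h : JAt I f t x) : HasFDerivAt (fun s => f s x) (pd f t x) t :=
  (h.left.differentiableAt (by simp)).hasFDerivAt

theorem JAt.of_fixed {u : M → N} (h : ContMDiffAt I 𝓘(ℝ, N) ∞ u x) : JAt I (fun _ : T => u) t x :=
  ContMDiffAt.comp (g := u) (f := Prod.snd) (t, x) h contMDiffAt_snd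

theorem JAt.of_par {c : T → N} (h : ContDiffAt ℝ ∞ c t) : JAt I (fun s (_ : M) => c s) t x :=
  ContMDiffAt.comp (g := c) (f := Prod.fst) (t, x) h.contMDiffAt contMDiffAt_fst

theorem JAt.reparam {T' : Type*} [NormedAddCommGroup T'] [NormedSpace ℝ T'] {φ : T' → T} {s : T'}
    (hφ : ContDiffAt ℝ ∞ φ s) (h : JAt I f (φ s) x) : JAt I (fun s => f (φ s)) s x :=
  ContMDiffAt.comp (g := fun z : T × M => f z.1 z.2) (f := fun z : T' × M => (φ z.1, z.2)) (s, x) h
    ((ContMDiffAt.comp (g := φ) (f := Prod.fst) (s, x) hφ.contMDiffAt contMDiffAt_fst).prodMk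
      contMDiffAt_snd)

theorem JAt.congr {f' : T → M → N} (h : JAt I f t x)
    (e : ∀ᶠ z in 𝓝 (t, x), f' z.1 z.2 = f z.1 z.2) : JAt I f' t x :=
  ContMDiffAt.congr_of_eventuallyEq h e

theorem JAt.pd [IsManifold I 1 M] (h : JAt I f t x) : JAt I (pd f) t x := by
  have h1 : ContMDiffAt ((𝓘(ℝ, T).prod I).prod 𝓘(ℝ, T)) 𝓘(ℝ, N) ∞
      (uncurry fun (z : T × M) (s : T) => f s z.2) ((t, x), ((t, x) : T × M).1) :=
    ContMDiffAt.comp (g := fun z : T × M => f z.1 z.2)
      (f := fun w : (T × M) × T => (w.2, w.1.2)) ((t, x), t) h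
      (contMDiffAt_snd.prodMk (contMDiffAt_snd.comp _ contMDiffAt_fst))
  have h2 := ContMDiffAt.mfderiv (m := ∞) (fun (z : T × M) (s : T) => f s z.2) Prod.fst h1
    contMDiffAt_fst (by simp)
  rw [inTangentCoordinates_model_space] at h2
  simp only [mfderiv_eq_fderiv] at h2
  exact h2

/-- derivative along a jointly smooth family of vector fields -/
theorem JAt.dv' [IsManifold I 1 M] {e : T → (x : M) → TangentSpace I x}
    (he : ContMDiffAt (𝓘(ℝ, T).prod I) I.tangent ∞
      (fun z : T × M => (⟨z.2, e z.1 z.2⟩ : TangentBundle I M)) (t, x))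
    (h : JAt I f t x) : JAt I (fun s => dv I (e s) (f s)) t x := by
  have h0 : ContMDiffAt ((𝓘(ℝ, T).prod I).prod I) 𝓘(ℝ, N) ∞
      (uncurry fun (z : T × M) (y : M) => f z.1 y) ((t, x), ((t, x) : T × M).2) :=
    ContMDiffAt.comp (g := fun z : T × M => f z.1 z.2)
      (f := fun w : (T × M) × M => (w.1.1, w.2)) ((t, x), x) h
      ((contMDiffAt_fst.comp _ contMDiffAt_fst).prodMk contMDiffAt_snd)
  have h2 := ContMDiffAt.mfderiv (m := ∞) (fun (z : T × M) (y : M) => f z.1 y) Prod.snd h0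
    contMDiffAt_snd (by simp)
  have h1 : ContMDiffAt (𝓘(ℝ, T).prod I) (𝓘(ℝ, N)).tangent ∞
      (fun z : T × M => (⟨f z.1 z.2, mfderiv I 𝓘(ℝ, N) (f z.1) z.2 (e z.1 z.2)⟩ :
        TangentBundle 𝓘(ℝ, N) N)) (t, x) :=
    ContMDiffAt.clm_apply_of_inCoordinates (b₁ := Prod.snd) (b₂ := fun z : T × M => f z.1 z.2)
      (ϕ := fun z => mfderiv I 𝓘(ℝ, N) (f z.1) z.2) (v := fun z => e z.1 z.2) h2 he h
  exact (contMDiff_snd_tangentBundle_modelSpace N 𝓘(ℝ, N) (n := ∞) _).comp (t, x) h1

theorem JAt.dv [IsManifold I 1 M] {e : (x : M) → TangentSpace I x}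
    (he : ContMDiffAt I I.tangent ∞ (fun x => (⟨x, e x⟩ : TangentBundle I M)) x)
    (h : JAt I f t x) : JAt I (fun s => dv I e (f s)) t x :=
  JAt.dv' (e := fun _ => e) (ContMDiffAt.comp (g := fun x => (⟨x, e x⟩ : TangentBundle I M))
    (f := Prod.snd) (t, x) he contMDiffAt_snd) h

variable [I.Boundaryless] [IsManifold I ∞ M]

theorem JAt.chart (h : JAt I f t x) :
    ContDiffAt ℝ ∞ (fun z : T × E => f z.1 ((extChartAt I x).symm z.2)) (t, extChartAt I x x) := by
  have h1 : ContMDiffAt 𝓘(ℝ, E) I ∞ (extChartAt I x).symm (extChartAt I x x) :=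
    (contMDiffOn_extChartAt_symm x).contMDiffAt (extChartAt_target_mem_nhds x)
  have h2 : ContMDiffAt 𝓘(ℝ, T × E) (𝓘(ℝ, T).prod I) ∞
      (fun z : T × E => (z.1, (extChartAt I x).symm z.2)) (t, extChartAt I x x) :=
    contDiffAt_fst.contMDiffAt.prodMk
      (ContMDiffAt.comp (g := (extChartAt I x).symm) (f := Prod.snd) (t, extChartAt I x x) h1
        contDiffAt_snd.contMDiffAt)
  exact (ContMDiffAt.comp_of_eq (g := fun z : T × M => f z.1 z.2) h h2 (by simp)).contDiffAt

omit [IsManifold I ∞ M] in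
theorem dv_chart {u : M → N} (e : (x : M) → TangentSpace I x)
    (hu : MDifferentiableAt I 𝓘(ℝ, N) u x) :
    dv I e u x = fderiv ℝ (fun y => u ((extChartAt I x).symm y)) (extChartAt I x x) (e x) := by
  rw [dv, hu.mfderiv, I.range_eq_univ, fderivWithin_univ]
  rfl

/-- the derivative in the parameter commutes with `dv` -/
theorem JAt.comm (e : (x : M) → TangentSpace I x) (h : JAt I f t x) :
    HasFDerivAt (fun s => Sob92.dv I e (f s) x) (Sob92.dv I e (Prm93.pd f t) x) t := by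
  set y := extChartAt I x x with hy
  set G : T × E → N := fun z => f z.1 ((extChartAt I x).symm z.2) with hG
  have hGs : ContDiffAt ℝ ∞ G (t, y) := h.chart
  have hG2 : ContDiffAt ℝ 2 G (t, y) := hGs.of_le (WithTop.coe_le_coe.2 (le_top : (2 : ℕ∞) ≤ ⊤))
  have hev : ∀ᶠ z in 𝓝 (t, y), DifferentiableAt ℝ G z :=
    (hG2.eventually (by simp)).mono fun z hz => hz.differentiableAt (by simp)
  have hD : HasFDerivAt (fderiv ℝ G) (fderiv ℝ (fderiv ℝ G) (t, y)) (t, y) :=
    ((hG2.fderiv_right (m := 1) (by norm_num)).differentiableAt (by simp)).hasFDerivAt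
  have hsy := hG2.isSymmSndFDerivAt (by simp)
  set ex : E := e x
  -- left side
  have h1 : ∀ᶠ s in 𝓝 t, Sob92.dv I e (f s) x = fderiv ℝ G (s, y) (0, ex) := by
    have a1 : ∀ᶠ s in 𝓝 t, DifferentiableAt ℝ G (s, y) :=
      (continuousAt_id.prodMk continuousAt_const).eventually hev
    have a2 : ∀ᶠ z in 𝓝 (t, x), ContMDiffAt (𝓘(ℝ, T).prod I) 𝓘(ℝ, N) 1
        (fun z : T × M => f z.1 z.2) z :=
      (contMDiffAt_iff_contMDiffAt_nhds (by simp)).1 (h.of_le (by exact_mod_cast le_top))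
    have a3 := (continuousAt_id.prodMk (continuousAt_const (y := x))).eventually a2
    filter_upwards [a1, a3] with s hs hs'
    have b1 : MDifferentiableAt I 𝓘(ℝ, N) (f s) x :=
      (ContMDiffAt.comp (g := fun z : T × M => f z.1 z.2) (f := fun y => (s, y)) x hs'
        (contMDiffAt_const.prodMk contMDiffAt_id)).mdifferentiableAt (by simp)
    rw [dv_chart e b1]
    exact congrArg (fun L : E →L[ℝ] N => L ex)
      (hs.hasFDerivAt.comp y (hasFDerivAt_prodMk_right s y)).fderiv
  have h2 : Sob92.dv I e (Prm93.pd f t) x =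
      (fderiv ℝ (fderiv ℝ G) (t, y) (0, ex)).comp (ContinuousLinearMap.inl ℝ T E) := by
    rw [dv_chart e (h.pd.right.mdifferentiableAt (by simp))]
    have a1 : ∀ᶠ y' in 𝓝 y, DifferentiableAt ℝ G (t, y') :=
      (continuousAt_const.prodMk continuousAt_id).eventually hev
    have a2 : (fun y' => Prm93.pd f t ((extChartAt I x).symm y')) =ᶠ[𝓝 y]
        fun y' => (fderiv ℝ G (t, y')).comp (ContinuousLinearMap.inl ℝ T E) :=
      a1.mono fun y' h' => (HasFDerivAt.comp (f := fun s => (s, y')) t h'.hasFDerivAt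
        (hasFDerivAt_prodMk_left t y')).fderiv
    rw [a2.fderiv_eq]
    have a3 := ((ContinuousLinearMap.compL ℝ T (T × E) N).flip
      (ContinuousLinearMap.inl ℝ T E)).hasFDerivAt.comp y
      (hD.comp y (hasFDerivAt_prodMk_right t y))
    exact congrArg (fun L : E →L[ℝ] T →L[ℝ] N => L ex) a3.fderiv
  have h3 := (ContinuousLinearMap.apply ℝ N ((0 : T), ex)).hasFDerivAt.comp t
    (hD.comp t (hasFDerivAt_prodMk_left t y))
  refine (h3.congr_of_eventuallyEq h1).congr_fderiv ?_
  rw [h2]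
  ext v
  exact hsy.eq (v, 0) (0, ex)

theorem JAt.pd_dv (e : (x : M) → TangentSpace I x) (h : JAt I f t x) :
    Prm93.pd (fun s => Sob92.dv I e (f s)) t x = Sob92.dv I e (Prm93.pd f t) x := (h.comm e).fderiv

end Crest.Agent.X212.Prm93
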