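import Crest.Agent.X212.Sob92.Bas
import Crest.Agent.X212.Prm93.Js

/-!
# X212 / Prm93 / Bk (helper93): the normed space `B F k N` of `Cb` functions with the `C^k` norm

`toB F k f`; continuous (bi)linear operations; `contDiffOn_toB`: a jointly smooth family that is
constant in the parameter outside a compact set is a smooth map to `B F k N`.
-/

set_option autoImplicit false
set_option linter.unusedSectionVars false
noncomputable section
open scoped Manifold ContDiff Topology BoundedContinuousFunction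
open Set Filter Function

namespace Crest.Agent.X212.Prm93
open An Sob92

variable {E : Type} [NormedAddCommGroup E] [NormedSpace ℝ E] [FiniteDimensional ℝ E]
  [MeasurableSpace E] [BorelSpace E]
  {HM : Type} [TopologicalSpace HM] {I : ModelWithCorners ℝ E HM}
  {M : Type} [TopologicalSpace M] [ChartedSpace HM M] [IsManifold I ∞ M]
  [MeasurableSpace M] {ι : Type} [Fintype ι]
  {N N' N'' : Type} [NormedAddCommGroup N] [NormedSpace ℝ N] [NormedAddCommGroup N']
  [NormedSpace ℝ N'] [NormedAddCommGroup N''] [NormedSpace ℝ N'']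
  {T : Type} [NormedAddCommGroup T] [NormedSpace ℝ T] {F : Pre I M ι} {k j : ℕ}

theorem Dw_clm (L : N →L[ℝ] N') (w : List ι) : ∀ {u : M → N}, Sm I u →
    F.Dw w (fun x => L (u x)) = fun x => L (F.Dw w u x) := by
  induction w with
  | nil => exact fun _ => rfl
  | cons a w ih =>
    intro u hu
    have : F.D a (fun x => L (u x)) = fun x => L (F.D a u x) :=
      funext fun x => dv_clm L (hu.mdifferentiableAt (by simp))
    rw [Pre.Dw, this, ih (F.sm_D hu a)]; rfl

theorem Dw_add (w : List ι) : ∀ {u v : M → N}, Sm I u → Sm I v →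
    F.Dw w (u + v) = F.Dw w u + F.Dw w v := by
  induction w with
  | nil => exact fun _ _ => rfl
  | cons a w ih =>
    intro u v hu hv
    rw [Pre.Dw, F.D_add hu hv, ih (F.sm_D hu a) (F.sm_D hv a)]; rfl

theorem Dw_smul (c : ℝ) (w : List ι) {u : M → N} (hu : Sm I u) : F.Dw w (c • u) = c • F.Dw w u :=
  Dw_clm (c • ContinuousLinearMap.id ℝ N) w hu

theorem Dw_congr (w : List ι) : ∀ {u v : M → N} {x : M}, u =ᶠ[𝓝 x] v → F.Dw w u x = F.Dw w v x := by
  induction w with
  | nil => exact fun h => h.self_of_nhds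
  | cons a w ih => exact fun h => ih (h.eventuallyEq_nhds.mono fun _ hy => dv_congr hy)

theorem Cb.sm {f : M → N} (h : F.Cb f) : Sm I f := h.choose_spec.1

/-- smooth functions with bounded derivatives -/
def CbS (F : Pre I M ι) (N : Type) [NormedAddCommGroup N] [NormedSpace ℝ N] :
    Submodule ℝ (M → N) where
  carrier := {f | F.Cb f}
  add_mem' := Cb_add
  zero_mem' := Cb_const 0
  smul_mem' := fun c _ hf => Cb_smul (Cb_const c) hf

/-- `CbS F N` with the `C^k` norm -/
@[nolint unusedArguments]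
def B (F : Pre I M ι) (_k : ℕ) (N : Type) [NormedAddCommGroup N] [NormedSpace ℝ N] : Type :=
  CbS F N

/-- words of length `≤ k` -/
abbrev Wd (ι : Type) (k : ℕ) : Type := {w : List ι // w.length ≤ k}

instance : Fintype (Wd ι k) := (List.finite_length_le ι k).fintype

namespace B
instance : AddCommGroup (B F k N) := inferInstanceAs (AddCommGroup (CbS F N))
instance : Module ℝ (B F k N) := inferInstanceAs (Module ℝ (CbS F N))

/-- the underlying function -/
def fn : B F k N →ₗ[ℝ] M → N := (CbS F N).subtype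

theorem cb (f : B F k N) : F.Cb (fn f) := (show CbS F N from f).2
theorem sm (f : B F k N) : Sm I (fn f) := Cb.sm f.cb
theorem fn_inj : Injective (fn : B F k N → M → N) := Subtype.val_injective
/-- constructor -/
def mk (k : ℕ) (f : M → N) (h : F.Cb f) : B F k N := (⟨f, h⟩ : CbS F N)
@[simp] theorem fn_mk (f : M → N) (h : F.Cb f) : fn (mk k f h) = f := rfl

/-- all derivatives of order `≤ k` -/
def jet : B F k N →ₗ[ℝ] Wd ι k → M →ᵇ N where
  toFun f w := BoundedContinuousFunction.ofNormedAddCommGroup (F.Dw w.1 (fn f))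
    (sm_Dw f.sm w.1).continuous (f.cb.choose k) (f.cb.choose_spec.2 k w.1 w.2)
  map_add' f g := funext fun w => BoundedContinuousFunction.ext fun x =>
    congrFun (Dw_add w.1 f.sm g.sm) x
  map_smul' c f := funext fun w => BoundedContinuousFunction.ext fun x =>
    congrFun (Dw_smul c w.1 f.sm) x

theorem jet_apply (f : B F k N) (w : Wd ι k) (x : M) : jet f w x = F.Dw w.1 (fn f) x := rfl

theorem jet_inj : Injective (jet : B F k N → Wd ι k → M →ᵇ N) := fun _ _ h =>
  fn_inj (funext fun x => congrArg (fun J => J ⟨[], Nat.zero_le k⟩ x) h)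

instance : NormedAddCommGroup (B F k N) := NormedAddCommGroup.induced _ _ jet jet_inj
instance : NormedSpace ℝ (B F k N) := NormedSpace.induced ℝ _ _ jet

theorem norm_le {f : B F k N} {C : ℝ} (hC : 0 ≤ C) : ‖f‖ ≤ C ↔ F.CB k (fn f) C := by
  change ‖jet f‖ ≤ C ↔ _
  simp only [pi_norm_le_iff_of_nonneg hC, BoundedContinuousFunction.norm_le hC, jet_apply]
  exact ⟨fun h w hw => h ⟨w, hw⟩, fun h w => h w.1 w.2⟩

theorem CB (f : B F k N) : F.CB k (fn f) ‖f‖ := (norm_le (norm_nonneg f)).1 le_rfl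

/-- continuous linear maps between the spaces `B` -/
def mkL (Λ : (M → N) → M → N') (K : ℝ) (hK : 0 ≤ K) (h1 : ∀ f, F.Cb f → F.Cb (Λ f))
    (h2 : ∀ f g, Sm I f → Sm I g → Λ (f + g) = Λ f + Λ g)
    (h3 : ∀ (c : ℝ) f, Sm I f → Λ (c • f) = c • Λ f)
    (h4 : ∀ f C, Sm I f → 0 ≤ C → F.CB k f C → F.CB j (Λ f) (K * C)) : B F k N →L[ℝ] B F j N' :=
  LinearMap.mkContinuous
    { toFun := fun f => mk j (Λ (fn f)) (h1 _ f.cb)
      map_add' := fun f g => fn_inj (h2 _ _ f.sm g.sm)
      map_smul' := fun c f => fn_inj (h3 c _ f.sm) } K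
    fun f => (norm_le (by positivity)).2 (h4 _ _ f.sm (norm_nonneg f) f.CB)

/-- inclusion -/
def incl (h : j ≤ k) : B F k N →L[ℝ] B F j N :=
  mkL id 1 zero_le_one (fun _ h => h) (fun _ _ _ _ => rfl) (fun _ _ _ => rfl)
    fun _ _ _ _ hf => by simpa using CB_of_le hf h

/-- derivative -/
def D (a : ι) : B F (k + 1) N →L[ℝ] B F k N :=
  mkL (F.D a) 1 zero_le_one (fun _ h => Cb_D h a) (fun _ _ hf hg => F.D_add hf hg a)
    (fun c _ hf => F.D_smul hf c a) fun _ _ _ _ hf => by simpa using CB_D hf a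

/-- constants -/
def const : N →L[ℝ] B F k N :=
  LinearMap.mkContinuous
    { toFun := fun c => mk k (fun _ => c) (Cb_const c)
      map_add' := fun _ _ => rfl
      map_smul' := fun _ _ => rfl } 1
    fun c => (norm_le (by positivity)).2 (by simpa using CB_const k c)

/-- evaluation -/
def ev (x : M) : B F k N →L[ℝ] N :=
  LinearMap.mkContinuous ((LinearMap.proj x).comp fn) 1 fun f => by simpa using CB_bound f.CB x

/-- pointwise bilinear maps -/
def bil (β : N →L[ℝ] N' →L[ℝ] N'') : B F k N →L[ℝ] B F k N' →L[ℝ] B F k N'' :=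
  LinearMap.mkContinuous₂
    (LinearMap.mk₂ ℝ (fun f g => mk k (fun x => β (fn f x) (fn g x)) (Cb_bil β f.cb g.cb))
      (fun _ _ _ => fn_inj (funext fun x => by simp))
      (fun _ _ _ => fn_inj (funext fun x => by simp))
      (fun _ _ _ => fn_inj (funext fun x => by simp))
      (fun _ _ _ => fn_inj (funext fun x => by simp))) (2 ^ (k + 1) * ‖β‖)
    fun f g => (norm_le (by positivity)).2 (by
      simpa using CB_bil β f.sm g.sm f.CB g.CB)

/-- pointwise linear maps -/
def clm (L : N →L[ℝ] N') : B F k N →L[ℝ] B F k N' :=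
  mkL (fun f x => L (f x)) ‖L‖ (norm_nonneg L) (fun _ h => Cb_clm L h)
    (fun _ _ _ _ => funext fun x => by simp) (fun _ _ _ => funext fun x => by simp)
    fun _ _ hf _ h => CB_clm L hf h

/-- operator valued functions as operators with values in functions -/
def swap : B F k (T →L[ℝ] N) →L[ℝ] T →L[ℝ] B F k N :=
  ((bil (ContinuousLinearMap.id ℝ (T →L[ℝ] N))).flip.comp const).flip

@[simp] theorem fn_incl (h : j ≤ k) (f : B F k N) : fn (incl h f) = fn f := rfl
@[simp] theorem fn_D (a : ι) (f : B F (k + 1) N) : fn (D a f) = F.D a (fn f) := rfl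
@[simp] theorem fn_const (c : N) : fn (const c : B F k N) = fun _ => c := rfl
@[simp] theorem ev_apply (x : M) (f : B F k N) : ev x f = fn f x := rfl
@[simp] theorem fn_bil (β : N →L[ℝ] N' →L[ℝ] N'') (f : B F k N) (g : B F k N') :
    fn (bil β f g) = fun x => β (fn f x) (fn g x) := rfl
@[simp] theorem fn_clm (L : N →L[ℝ] N') (f : B F k N) : fn (clm L f) = fun x => L (fn f x) := rfl
@[simp] theorem fn_swap (f : B F k (T →L[ℝ] N)) (v : T) : fn (swap f v) = fun x => fn f x v := rfl

end B

open Classical in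
/-- a function as an element of `B` (zero if it is not `Cb`) -/
def toB (F : Pre I M ι) (k : ℕ) (f : M → N) : B F k N := if h : F.Cb f then B.mk k f h else 0

theorem toB_eq {f : M → N} (h : F.Cb f) : toB F k f = B.mk k f h := dif_pos h

theorem fn_toB {f : M → N} (h : F.Cb f) : B.fn (toB F k f) = f := by rw [toB_eq h]; rfl

theorem toB_fn (f : B F k N) : toB F k (B.fn f) = f := B.fn_inj (fn_toB f.cb)

theorem eq_toB {f : M → N} {g : B F k N} (h : B.fn g = f) : g = toB F k f := by rw [← h, toB_fn]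

variable {O : Set T} {f : T → M → N}

theorem JS.sm (h : JS I O f) {t : T} (ht : t ∈ O) : Sm I (f t) := fun x => (h t ht x).right

theorem JS.pd (h : JS I O f) : JS I O (pd f) := fun t ht x => (h t ht x).pd

theorem JS.D (h : JS I O f) (a : ι) : JS I O fun t => F.D a (f t) :=
  fun t ht x => (h t ht x).dv (F.sm a x)

theorem JS.Dw (w : List ι) : ∀ {f : T → M → N}, JS I O f → JS I O fun t => F.Dw w (f t) := by
  induction w with
  | nil => exact fun h => h
  | cons a w ih => exact fun h => ih (h.D a)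

variable [I.Boundaryless]

theorem JS.pd_Dw (w : List ι) {t : T} (ht : t ∈ O) : ∀ {f : T → M → N}, JS I O f →
    Prm93.pd (fun s => F.Dw w (f s)) t = F.Dw w (Prm93.pd f t) := by
  induction w with
  | nil => exact fun _ => rfl
  | cons a w ih =>
    intro f h
    have : Prm93.pd (fun s => F.D a (f s)) t = F.D a (Prm93.pd f t) :=
      funext fun x => (h t ht x).pd_dv (F.e a)
    exact (ih (h.D a)).trans (by rw [this]; rfl)

theorem JS.hasFDerivAt_toB (hO : IsOpen O) (h : JS I O f) (h1 : ∀ t ∈ O, F.Cb (f t))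
    (h2 : ∀ t ∈ O, F.Cb (Prm93.pd f t)) {t : T} (ht : t ∈ O)
    (hc : ContinuousAt (fun s => toB F k (Prm93.pd f s)) t) :
    HasFDerivAt (fun s => toB F k (f s)) (B.swap (toB F k (Prm93.pd f t))) t := by
  rw [hasFDerivAt_iff_isLittleO, Asymptotics.isLittleO_iff]
  intro ε hε
  obtain ⟨r, hr, hb⟩ := Metric.eventually_nhds_iff_ball.1
    ((Metric.tendsto_nhds.1 hc ε hε).and (hO.mem_nhds ht))
  filter_upwards [Metric.ball_mem_nhds t hr] with s hs
  refine (B.norm_le (by positivity)).2 fun w hw x => ?_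
  have key := (convex_ball t r).norm_image_sub_le_of_norm_hasFDerivWithin_le'
    (f := fun s => F.Dw w (f s) x) (f' := fun s => F.Dw w (Prm93.pd f s) x)
    (φ := F.Dw w (Prm93.pd f t) x) (C := ε)
    (fun s hs => by
      have := (JS.Dw (F := F) w h s (hb s hs).2 x).hasFDerivAt
      rw [JS.pd_Dw w (hb s hs).2 h] at this
      exact this.hasFDerivWithinAt)
    (fun s hs => by
      have := (B.norm_le hε.le).1 ((dist_eq_norm _ _).symm.trans_le (hb s hs).1.le) w hw x
      rwa [← B.jet_apply _ ⟨w, hw⟩, map_sub, Pi.sub_apply, BoundedContinuousFunction.sub_apply,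
        B.jet_apply, B.jet_apply, fn_toB (h2 s (hb s hs).2), fn_toB (h2 t ht)] at this)
    (Metric.mem_ball_self hr) hs
  rw [← B.jet_apply _ ⟨w, hw⟩, map_sub, map_sub]
  simp only [Pi.sub_apply, BoundedContinuousFunction.sub_apply, B.jet_apply, B.fn_swap,
    fn_toB (h1 s (hb s hs).2), fn_toB (h1 t ht), fn_toB (h2 t ht)]
  have := congrFun (Dw_clm (F := F) (ContinuousLinearMap.apply ℝ N (s - t)) w (h.pd.sm ht)) x
  simp only [ContinuousLinearMap.apply_apply] at this
  rw [this]; exact key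

/-- all derivatives in the parameter up to order `n` are `Cb`, the last one is continuous -/
def PF (F : Pre I M ι) (k : ℕ) (O : Set T) : ℕ → ∀ {N : Type} [NormedAddCommGroup N]
    [NormedSpace ℝ N], (T → M → N) → Prop
  | 0, _, _, _, f => (∀ t ∈ O, F.Cb (f t)) ∧ ContinuousOn (fun t => toB F k (f t)) O
  | n + 1, _, _, _, f => (∀ t ∈ O, F.Cb (f t)) ∧ PF F k O n (pd f)

omit [I.Boundaryless] in
theorem PF.cb : ∀ {n : ℕ}, PF F k O n f → ∀ t ∈ O, F.Cb (f t)
  | 0, h => h.1
  | _ + 1, h => h.1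

theorem PF.contDiffOn (hO : IsOpen O) (n : ℕ) : ∀ {N : Type} [NormedAddCommGroup N]
    [NormedSpace ℝ N] {f : T → M → N}, JS I O f → PF F k O n f →
      ContDiffOn ℝ n (fun t => toB F k (f t)) O := by
  induction n with
  | zero => exact fun _ h => by simpa using h.2
  | succ n ih =>
    intro N _ _ f h hp
    have h1 := ih h.pd hp.2
    rw [Nat.cast_succ, contDiffOn_succ_iff_hasFDerivWithinAt_of_uniqueDiffOn hO.uniqueDiffOn]
    refine ⟨by simp, fun t => B.swap (toB F k (pd f t)), B.swap.contDiff.comp_contDiffOn h1,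
      fun t ht => (h.hasFDerivAt_toB hO hp.1 hp.2.cb ht ?_).hasFDerivWithinAt⟩
    exact h1.continuousOn.continuousAt (hO.mem_nhds ht)

omit [I.Boundaryless]

variable (F) in
/-- a jointly smooth family of `Cb` functions, constant in the parameter outside `K` -/
structure Fam (K : Set M) (O : Set T) (f : T → M → N) : Prop where
  js : JS I O f
  cb : ∀ t ∈ O, F.Cb (f t)
  out : ∀ t ∈ O, ∀ s ∈ O, ∀ x ∉ K, f t x = f s x

theorem JS.fam [CompactSpace M] (h : JS I O f) : Fam F univ O f :=
  ⟨h, fun _ ht => Cb_of_compact (h.sm ht), fun _ _ _ _ x hx => absurd (mem_univ x) hx⟩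

variable [T2Space M] {K : Set M}

theorem Fam.pd_out (hO : IsOpen O) (h : Fam F K O f) {t : T} (ht : t ∈ O) {x : M} (hx : x ∉ K) :
    pd f t x = 0 := by
  have : (fun s => f s x) =ᶠ[𝓝 t] fun _ => f t x :=
    mem_of_superset (hO.mem_nhds ht) fun s hs => h.out s hs t ht x hx
  rw [pd, this.fderiv_eq]; simp

theorem Fam.pd_hcs (hK : IsCompact K) (hO : IsOpen O) (h : Fam F K O f) {t : T} (ht : t ∈ O) :
    HasCompactSupport (pd f t) := HasCompactSupport.intro hK fun _ hx => h.pd_out hO ht hx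

theorem Fam.pd (hK : IsCompact K) (hO : IsOpen O) (h : Fam F K O f) : Fam F K O (pd f) :=
  ⟨h.js.pd, fun _ ht => Cb_of_hcs (h.js.pd.sm ht) (h.pd_hcs hK hO ht),
    fun _ ht _ hs _ hx => by rw [h.pd_out hO ht hx, h.pd_out hO hs hx]⟩

theorem Fam.continuousOn (hK : IsCompact K) (h : Fam F K O f) :
    ContinuousOn (fun t => toB F k (f t)) O := by
  intro t ht
  refine Metric.tendsto_nhds.2 fun ε hε => ?_
  have h1 : ∀ w : Wd ι k, ∀ᶠ s in 𝓝 t, ∀ x ∈ K,
      ‖F.Dw w.1 (f s) x - F.Dw w.1 (f t) x‖ ≤ ε / 2 := fun w =>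
    hK.eventually_forall_of_forall_eventually fun x _ => by
      have a1 := (JS.Dw (F := F) w.1 h.js t ht x).continuousAt
      have a2 := (JAt.of_fixed (t := t) ((sm_Dw (F := F) (h.js.sm ht) w.1) x)).continuousAt
      exact (a1.sub a2).norm.eventually_le_const (by simpa using hε)
  filter_upwards [nhdsWithin_le_nhds (eventually_all.2 h1), self_mem_nhdsWithin] with s hs hsO
  rw [dist_eq_norm]
  refine ((B.norm_le (by positivity)).2 fun w hw x => ?_).trans_lt (half_lt_self hε)
  rw [← B.jet_apply _ ⟨w, hw⟩, map_sub, Pi.sub_apply, BoundedContinuousFunction.sub_apply,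
    B.jet_apply, B.jet_apply, fn_toB (h.cb s hsO), fn_toB (h.cb t ht)]
  by_cases hx : x ∈ K
  · exact hs ⟨w, hw⟩ x hx
  · rw [Dw_congr w (mem_of_superset (hK.isClosed.isOpen_compl.mem_nhds hx)
      fun y hy => h.out s hsO t ht y hy), sub_self, norm_zero]
    positivity

theorem Fam.pf (hK : IsCompact K) (hO : IsOpen O) (n : ℕ) : ∀ {N : Type} [NormedAddCommGroup N]
    [NormedSpace ℝ N] {f : T → M → N}, Fam F K O f → PF F k O n f := by
  induction n with
  | zero => exact fun h => ⟨h.cb, h.continuousOn hK⟩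
  | succ n ih => exact fun h => ⟨h.cb, ih (h.pd hK hO)⟩

variable [I.Boundaryless]

/-- **PARAM** -/
theorem Fam.contDiffOn (hK : IsCompact K) (hO : IsOpen O) (h : Fam F K O f) :
    ContDiffOn ℝ ∞ (fun t => toB F k (f t)) O :=
  contDiffOn_infty.2 fun n => PF.contDiffOn hO n h.js (h.pf hK hO n)

theorem Fam.hasFDerivAt (hK : IsCompact K) (hO : IsOpen O) (h : Fam F K O f) {t : T} (ht : t ∈ O) :
    HasFDerivAt (fun s => toB F k (f s)) (B.swap (toB F k (Prm93.pd f t))) t :=
  h.js.hasFDerivAt_toB hO h.cb (h.pd hK hO).cb ht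
    (((h.pd hK hO).continuousOn hK).continuousAt (hO.mem_nhds ht))

end Crest.Agent.X212.Prm93
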