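import Crest.Agent.X212.Prm93.Chg
import Crest.Agent.X212.An.Gauge

/-!
# X212 / Prm93 / Fam (helper93): jointly smooth families of frames

`JV I X t x` : a family of vector fields is jointly smooth (read in the chart at `x`);
for a family `G t : Fr` with jointly smooth frame, `P, c, dv, Gam` and the density `rd` of the
Riemannian measure are jointly smooth.  `vol_eq`, `integral_rd`; integrals as maps on `B` and `H`.
-/

set_option autoImplicit false
set_option linter.unusedSectionVars false
noncomputable section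
open scoped Manifold ContDiff Topology InnerProductSpace NNReal ENNReal
open MeasureTheory Set Filter Function Module

namespace Crest.Agent.X212.Prm93
open An An.Pre Sob92 Met55 Pj41

variable {E : Type} [NormedAddCommGroup E] [NormedSpace ℝ E] [FiniteDimensional ℝ E]
  {HM : Type} [TopologicalSpace HM] {I : ModelWithCorners ℝ E HM}
  {M : Type} [TopologicalSpace M] [ChartedSpace HM M] [IsManifold I ∞ M]
  {ι ι' : Type} [Fintype ι] [Fintype ι']
  {N : Type} [NormedAddCommGroup N] [NormedSpace ℝ N]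
  {T : Type} [NormedAddCommGroup T] [NormedSpace ℝ T] {t : T} {x : M} {O : Set T}

variable (I) in
/-- a jointly smooth family of vector fields -/
abbrev JV (X : T → VF I M) (t : T) (x : M) : Prop :=
  JAt I (fun s => dv I (X s) (extChartAt I x)) t x

theorem ev_src (t : T) (x : M) : ∀ᶠ z : T × M in 𝓝 (t, x), z.2 ∈ (chartAt HM x).source :=
  continuousAt_snd.eventually ((chartAt HM x).open_source.mem_nhds (mem_chart_source HM x))

theorem JV.of_fixed {X : VF I M} (h : VAt I X x) : JV I (fun _ : T => X) t x :=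
  JAt.of_fixed (vAt_iff_self.1 h)

theorem JV.of_tangent {X : T → VF I M} (h : ContMDiffAt (𝓘(ℝ, T).prod I) I.tangent ∞
    (fun z : T × M => (⟨z.2, X z.1 z.2⟩ : TangentBundle I M)) (t, x)) : JV I X t x :=
  JAt.dv' h (JAt.of_fixed contMDiffAt_extChartAt)

theorem JV.comb {X : ι → T → VF I M} {S : ι → T → M → ℝ} (hS : ∀ b, JAt I (S b) t x)
    (hX : ∀ b, JV I (X b) t x) : JV I (fun s y => ∑ b, S b s y • X b s y) t x :=
  (FSm.sum' (s := Finset.univ) fun b _ => (hS b).smul (hX b)).congr_of_eventuallyEq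
    (.of_forall fun z => dv_vcomb (fun b => S b z.1) (fun b => X b z.1) _ z.2)

theorem JV.congr {X Y : T → VF I M} (h : JV I X t x)
    (e : ∀ᶠ z : T × M in 𝓝 (t, x), Y z.1 z.2 = X z.1 z.2) : JV I Y t x :=
  JAt.congr h (e.mono fun _ hz => dv_vcongr hz _)

theorem JV.cp {X : T → VF I M} (h : JV I X t x) (i : Fin (finrank ℝ E)) :
    JAt I (fun s => cp I x (X s) i) t x :=
  ((finBasis ℝ E).coord i).toContinuousLinearMap.contDiff.contDiffAt.comp_contMDiffAt h

theorem JV.dv {X : T → VF I M} (h : JV I X t x) {f : T → M → N} (hf : JAt I f t x) :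
    JAt I (fun s => dv I (X s) (f s)) t x :=
  (FSm.sum' (s := Finset.univ) fun i _ => (h.cp i).smul
    (hf.dv (vAt_cf (mem_chart_source HM x) (finBasis ℝ E i)))).congr_of_eventuallyEq
    ((ev_src t x).mono fun z hz => dv_cp hz (X z.1) (f z.1))

section frame
variable {e : T → ι → VF I M} (he : ∀ a, JV I (fun s => e s a) t x) (hs : ∀ s y, Sp (atx (e s) y))
include he

theorem jm_fm : MSm (𝓘(ℝ, T).prod I)
    (fun z : T × M => fm (finBasis ℝ E) (inc I x (e z.1) z.2)) (t, x) := fun i a => (he a).cp i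

theorem jm_gm : MSm (𝓘(ℝ, T).prod I)
    (fun z : T × M => gm (finBasis ℝ E) (inc I x (e z.1) z.2)) (t, x) :=
  (jm_fm he).mul (jm_fm he).transpose

include hs

theorem jm_ri : MSm (𝓘(ℝ, T).prod I)
    (fun z : T × M => ri (finBasis ℝ E) (inc I x (e z.1) z.2)) (t, x) :=
  (jm_fm he).transpose.mul ((jm_gm he).inv (sp_inc (mem_chart_source HM x) (hs t x)).det_pos.ne')

theorem jAt_rjb : JAt I (fun s y => rjb (finBasis ℝ E) (inc I x (e s) y)) t x := by
  have h0 := (sp_inc (mem_chart_source HM x) (hs t x)).det_pos (b := finBasis ℝ E)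
  have h1 : FSm (𝓘(ℝ, T).prod I)
      (fun z : T × M => √(gm (finBasis ℝ E) (inc I x (e z.1) z.2)).det) (t, x) :=
    ContDiffAt.comp_contMDiffAt (g := Real.sqrt)
      (f := fun z : T × M => (gm (finBasis ℝ E) (inc I x (e z.1) z.2)).det)
      (Real.contDiffAt_sqrt h0.ne') (jm_gm he).det
  exact FSm.inv' h1 (Real.sqrt_pos.2 h0).ne'

theorem jAt_fP (a b : ι) : JAt I (fun s y => fP (e s) y a b) t x :=
  (((jm_ri he hs).mul (jm_fm he)) a b).congr_of_eventuallyEq
    ((ev_src t x).mono fun z hz => congrFun (congrFun (fP_chart hz (hs z.1 z.2)) a) b)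

theorem jAt_fT {X : T → VF I M} (hX : JV I X t x) (a : ι) :
    JAt I (fun s y => fT (e s) (X s) y a) t x :=
  ((jm_ri he hs).mulVec (v := fun (z : T × M) i => cp I x (X z.1) i z.2)
    (fun i => hX.cp i) a).congr_of_eventuallyEq
    ((ev_src t x).mono fun z hz => congrFun (fT_chart hz (hs z.1 z.2) (X z.1)) a)

end frame

theorem JV.br [I.Boundaryless] {X Y : T → VF I M} (hX : JV I X t x) (hY : JV I Y t x)
    (hX' : ∀ s y, VAt I (X s) y) (hY' : ∀ s y, VAt I (Y s) y) :
    JV I (fun s => br I (X s) (Y s)) t x :=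
  ((hX.dv hY).sub (hY.dv hX)).congr_of_eventuallyEq ((ev_src t x).mono fun _ hz =>
    dv_br (hX' _ _) (hY' _ _) ((contMDiffAt_extChartAt' (n := ∞) hz).of_le two_le))

variable [MeasurableSpace E] [BorelSpace E] [MeasurableSpace M]

/-- the density of the Riemannian measure of `F'` with respect to the one of `F` -/
def rd (F : Pre I M ι) (F' : Pre I M ι') (x : M) : ℝ := rj F'.e x / rj F.e x

theorem rd_pos (F : Pre I M ι) (F' : Pre I M ι') (x : M) : 0 < rd F F' x :=
  div_pos (pre_sp F' x).rjb_pos (pre_sp F x).rjb_pos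

theorem rd_chart (F : Pre I M ι) (F' : Pre I M ι') {p : M} (hx : x ∈ (chartAt HM p).source) :
    rd F F' x = rjb (finBasis ℝ E) (inc I p F'.e x) / rjb (finBasis ℝ E) (inc I p F.e x) := by
  have h1 := rjb_map (v := atx F.e x) (dch I p x) (finBasis ℝ E) (finBasis ℝ E)
  have h2 := rjb_map (v := atx F'.e x) (dch I p x) (finBasis ℝ E) (finBasis ℝ E)
  have h3 := (sp_inc hx (pre_sp F x)).rjb_pos (b := finBasis ℝ E)
  erw [h1] at h3
  erw [h1, h2]
  rw [mul_div_mul_left _ _ (left_ne_zero_of_mul h3.ne')]; rfl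

/-- the frames of the family are jointly smooth on `O × M` -/
def JF (O : Set T) (G : T → Pre I M ι) : Prop := ∀ t ∈ O, ∀ x a, JV I (fun s => (G s).e a) t x

theorem JF.fixed (F : Pre I M ι) : JF O fun _ => F := fun _ _ x a => JV.of_fixed (F.sm a x)

theorem JF.of_mix {F : Pre I M ι} {G : T → Pre I M ι'} {A : ι' → ι → T → M → ℝ} (hO : IsOpen O)
    (hG : ∀ t ∈ O, Mix F (G t) fun a b => A a b t) (hA : ∀ a b, JS I O (A a b)) : JF O G :=
  fun t ht x a => (JV.comb (fun b => hA a b t ht x) fun b => JV.of_fixed (F.sm b x)).congr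
    ((continuousAt_fst.eventually (hO.mem_nhds ht)).mono fun z hz => hG z.1 hz a z.2)

namespace JF
variable {G : T → Pre I M ι} {G' : T → Pre I M ι'}

theorem D (h : JF O G) {f : T → M → N} (hf : JS I O f) (a : ι) : JS I O fun t => (G t).D a (f t) :=
  fun t ht x => (h t ht x a).dv (hf t ht x)

theorem Dw (h : JF O G) (w : List ι) : ∀ {f : T → M → N}, JS I O f →
    JS I O fun t => (G t).Dw w (f t) := by
  induction w with
  | nil => exact fun hf => hf
  | cons a w ih => exact fun hf => ih (h.D hf a)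

/-- the coefficients of `mix_fT` are jointly smooth -/
theorem mix (h : JF O G) (h' : JF O G') (a : ι') (b : ι) :
    JS I O fun t x => fT (G t).e ((G' t).e a) x b :=
  fun t ht x => jAt_fT (h t ht x) (fun s => pre_sp (G s)) (h' t ht x a) b

theorem rd (h : JF O G) (h' : JF O G') : JS I O fun t => rd (G t) (G' t) := fun t ht x =>
  (FSm.mul' (jAt_rjb (h' t ht x) fun s => pre_sp (G' s)) (FSm.inv' (jAt_rjb (h t ht x)
    fun s => pre_sp (G s))
      (sp_inc (mem_chart_source HM x) (pre_sp (G t) x)).rjb_pos.ne')).congr_of_eventuallyEq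
    ((ev_src t x).mono fun z hz => rd_chart (G z.1) (G' z.1) hz)

variable {G : T → Fr I M ι}

theorem P (h : JF O fun t => (G t).toPre) (a b : ι) : JS I O fun t => (G t).P a b := fun t ht x =>
  (jAt_fP (h t ht x) (fun s => pre_sp (G s).toPre) a b).congr
    (.of_forall fun z => fr_P (G z.1) a b z.2)

variable [I.Boundaryless]

theorem c (h : JF O fun t => (G t).toPre) (a b l : ι) : JS I O fun t => (G t).c a b l :=
  fun t ht x => (jAt_fT (h t ht x) (fun s => pre_sp (G s).toPre) ((h t ht x a).br (h t ht x b)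
    (fun s => (G s).sm a) fun s => (G s).sm b) l).congr (.of_forall fun z => fr_c (G z.1) a b l z.2)

theorem Gam (h : JF O fun t => (G t).toPre) (a b k : ι) : JS I O fun t => (G t).Gam a b k :=
  fun t ht x => ((((((h.D (h.P b k) a t ht x).add (h.D (h.P a k) b t ht x)).sub
    (h.D (h.P a b) k t ht x)).add (h.c a b k t ht x)).sub (h.c a k b t ht x)).sub
      (h.c b k a t ht x)).div_const 2

theorem dv [T2Space M] [BorelSpace M] (hO : IsOpen O) (h : JF O fun t => (G t).toPre)
    (hv : ∀ t ∈ O, (G t).IsVol) (a : ι) : JS I O fun t => (G t).dv a := fun t ht x =>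
  (FSm.sum' (s := Finset.univ) fun b _ => FSm.sum' (s := Finset.univ) fun l _ =>
    FSm.mul' (h.c b a l t ht x) (h.P l b t ht x)).congr_of_eventuallyEq
    ((continuousAt_fst.eventually (hO.mem_nhds ht)).mono fun z hz => dv_vol (hv z.1 hz) a z.2)

end JF

theorem sm_rd (F : Pre I M ι) (F' : Pre I M ι') : Sm I (rd F F') :=
  ((JF.fixed (O := (univ : Set ℝ)) F).rd (JF.fixed F')).sm (mem_univ 0)

variable [I.Boundaryless] [T2Space M] [BorelSpace M]

theorem dens_lintegral {μ : Measure M} {x₀ : M} {S : Set M} {ρ : E → ℝ}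
    (h : HasDens I μ x₀ S ρ) (hρ : ContinuousOn ρ (extChartAt I x₀ '' S)) {s : Set M}
    (hm : MeasurableSet s) (hs : s ⊆ S) {g : M → ℝ≥0∞} (hg : Measurable g) :
    ∫⁻ x in s, g x ∂μ = ∫⁻ y in extChartAt I x₀ '' s,
      ENNReal.ofReal (ρ y) * g ((extChartAt I x₀).symm y) ∂leb E := by
  classical
  set φ := extChartAt I x₀
  have h1 := (isOpen_img h.1 h.2.2.1).measurableSet
  have h2 : ContinuousOn φ.symm (φ '' S) := (continuousOn_extChartAt_symm x₀).mono (by
    rintro _ ⟨x, hx, rfl⟩; exact φ.map_source (h.2.2.1 hx))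
  have h3 := h2.measurable_piecewise (continuousOn_const (c := x₀)) h1
  set ψ := (φ '' S).piecewise φ.symm fun _ => x₀
  have hψ : ∀ x ∈ S, ψ (φ x) = x := fun x hx => by
    rw [show ψ (φ x) = φ.symm (φ x) from piecewise_eq_of_mem _ _ _ (mem_image_of_mem _ hx),
      φ.left_inv (h.2.2.1 hx)]
  have h4 : Measurable fun y => s.indicator g (ψ y) := (hg.indicator hm).comp h3
  have h5 := meas_img h.1 h.2.2.1 hm
  rw [inter_eq_left.2 hs] at h5
  calc ∫⁻ x in s, g x ∂μ = ∫⁻ x in S, s.indicator g (ψ (φ x)) ∂μ := by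
        rw [setLIntegral_congr_fun h.1.measurableSet fun x hx => by rw [hψ x hx],
          lintegral_indicator hm, Measure.restrict_restrict hm, inter_eq_left.2 hs]
    _ = ∫⁻ y in φ '' S, ENNReal.ofReal (ρ y) * s.indicator g (ψ y) ∂leb E := by
        rw [← lintegral_map' h4.aemeasurable (dens_aem h), h.2.2.2,
          lintegral_withDensity_eq_lintegral_mul₀ (hρ.aemeasurable h1).ennreal_ofReal
            h4.aemeasurable]
        rfl
    _ = _ := by
        rw [← inter_eq_left.2 (image_mono hs), ← Measure.restrict_restrict h5,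
          ← lintegral_indicator h5]
        refine setLIntegral_congr_fun h1 ?_
        rintro _ ⟨x, hx, rfl⟩
        simp only [hψ x hx]
        by_cases hx' : x ∈ s
        · rw [indicator_of_mem hx', indicator_of_mem (mem_image_of_mem _ hx'),
            φ.left_inv (h.2.2.1 hx)]
        · rw [indicator_of_notMem hx', indicator_of_notMem, mul_zero]
          rintro ⟨z, hz, e⟩
          exact hx' (φ.injOn (h.2.2.1 (hs hz)) (h.2.2.1 hx) e ▸ hz)

variable [SecondCountableTopology M] {F : Pre I M ι} {F' : Pre I M ι'}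

/-- two Riemannian measures -/
theorem vol_eq (h : F.IsVol) (h' : F'.IsVol) :
    F'.μ = F.μ.withDensity fun x => ENNReal.ofReal (rd F F' x) := by
  choose S hS using h
  choose S' hS' using h'
  obtain ⟨c, hc, hU⟩ := TopologicalSpace.countable_cover_nhds (f := fun x => S x ∩ S' x)
    fun x => ((hS x).1.inter (hS' x).1).mem_nhds ⟨(hS x).2.1, (hS' x).2.1⟩
  refine Measure.ext_of_biUnion_eq_univ hc hU fun p _ => Measure.ext fun s hm => ?_
  have ho := (hS p).1.inter (hS' p).1
  have hm' := hm.inter ho.measurableSet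
  have hsrc : ∀ y ∈ S p, y ∈ (chartAt HM p).source := fun y hy => by simpa using (hS p).2.2.1 hy
  have hρ : ContinuousOn (fun y => (√(F.gram p ((extChartAt I p).symm y)).det)⁻¹)
      (extChartAt I p '' S p) := by
    rintro _ ⟨y, hy, rfl⟩
    simp only [gram_eq]
    exact (chart_contDiffAt le_rfl (hsrc y hy)
      (sm_rjb (hsrc y hy) (fun a => F.sm a y) (pre_sp F y))).continuousAt.continuousWithinAt
  have h5 := meas_img ho (fun y hy => (hS p).2.2.1 hy.1) hm
  rw [Measure.restrict_apply hm, Measure.restrict_apply hm, withDensity_apply _ hm',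
    dens_lintegral (hS p) hρ hm' (fun y hy => hy.2.1)
      (sm_rd F F').continuous.measurable.ennreal_ofReal,
    dens_apply (hS' p) (fun y hy => hy.2.2) h5]
  refine setLIntegral_congr_fun h5 ?_
  rintro _ ⟨y, hy, rfl⟩
  have h0 := (sp_inc (hsrc y hy.2.1) (pre_sp F y)).rjb_pos (b := finBasis ℝ E)
  simp only [(extChartAt I p).left_inv ((hS p).2.2.1 hy.2.1), gram_eq]
  rw [rd_chart F F' (hsrc y hy.2.1)]
  erw [← ENNReal.ofReal_mul h0.le, mul_div_cancel₀ _ h0.ne']
  rfl

theorem integral_rd (h : F.IsVol) (h' : F'.IsVol) (g : M → N) :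
    ∫ x, g x ∂F'.μ = ∫ x, rd F F' x • g x ∂F.μ := by
  rw [vol_eq h h', integral_withDensity_eq_integral_toReal_smul
    (sm_rd F F').continuous.measurable.ennreal_ofReal (.of_forall fun _ => ENNReal.ofReal_lt_top)]
  simp only [ENNReal.toReal_ofReal (rd_pos F F' _).le]

/-- the inner product of `F'` on the scale of `F` -/
theorem inner_chg {V : Type} [NormedAddCommGroup V] [InnerProductSpace ℝ V] {p : M → V →L[ℝ] V}
    (h : F.IsVol) (h' : F'.IsVol) (hc : Cmp F F') (hr : F.Cb (rd F F')) (u v : F.H 0 p) :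
    ⟪chg 0 p hc u, chg 0 p hc v⟫_ℝ = ⟪smulH F 0 p (rd F F') u, v⟫_ℝ := by
  induction u, v using H_ind₂ with
  | hP => exact isClosed_eq (by fun_prop) (by fun_prop)
  | h u v =>
    rw [chg_toH, chg_toH, RepT_toH (rep_smulH hr), inner_toH, inner_toH, ip, ip, integral_rd h h']
    simp only [real_inner_smul_left, smul_eq_mul]

omit [I.Boundaryless] [SecondCountableTopology M] in
/-- integration against a compactly supported weight -/
def intB (F : Pre I M ι) {χ : M → ℝ} (hχ : Continuous χ) (hc : HasCompactSupport χ) :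
    B F 0 N →L[ℝ] N :=
  LinearMap.mkContinuous
    { toFun := fun f => ∫ x, χ x • B.fn f x ∂F.μ
      map_add' := fun f g => by
        refine Eq.trans ?_ (integral_add
          ((hχ.smul f.sm.continuous).integrable_of_hasCompactSupport hc.smul_right)
          ((hχ.smul g.sm.continuous).integrable_of_hasCompactSupport hc.smul_right))
        simp
      map_smul' := fun c f => by
        rw [RingHom.id_apply, ← integral_smul]
        simp [smul_comm c] } (∫ x, ‖χ x‖ ∂F.μ) fun f => by
    rw [← integral_mul_const]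
    refine norm_integral_le_of_norm_le
      ((hχ.integrable_of_hasCompactSupport hc).norm.mul_const _) (.of_forall fun x => ?_)
    rw [norm_smul]
    exact mul_le_mul_of_nonneg_left (CB_bound f.CB x) (norm_nonneg _)

omit [I.Boundaryless] [SecondCountableTopology M] in
theorem SB.integral {f : T → M → N} (h : SB F O f) {χ : M → ℝ} (hχ : Continuous χ)
    (hc : HasCompactSupport χ) : ContDiffOn ℝ ∞ (fun t => ∫ x, χ x • f t x ∂F.μ) O :=
  ((intB F hχ hc).contDiff.comp_contDiffOn (h.sm 0)).congr fun t ht => by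
    rw [← fn_toB (k := 0) (h.cb t ht)]; rfl

end Crest.Agent.X212.Prm93
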