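import Crest.Agent.X212.Sob92.Bil
import Crest.Agent.X212.Prm93.Bk

/-!
# X212 / Prm93 / H (helper93): operators on `H` depending smoothly on a parameter

`SB F O f` : `t ↦ f t` is a smooth map from `O` to every `B F k N`.  Closure properties and
`SB.mulH`, `SB.smulH`, `SB.opH`, `SB.bilH`, `SB.toH`, `SB.lift_op` (family of frames).
-/

set_option autoImplicit false
set_option linter.unusedSectionVars false
noncomputable section
open scoped Manifold ContDiff Topology InnerProductSpace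
open MeasureTheory Set Filter Function

namespace Crest.Agent.X212.Prm93
open An An.Pre Sob92

variable {E : Type} [NormedAddCommGroup E] [NormedSpace ℝ E] [FiniteDimensional ℝ E]
  [MeasurableSpace E] [BorelSpace E]
  {HM : Type} [TopologicalSpace HM] {I : ModelWithCorners ℝ E HM}
  {M : Type} [TopologicalSpace M] [ChartedSpace HM M] [IsManifold I ∞ M]
  [MeasurableSpace M] {ι ι' : Type} [Fintype ι] [Fintype ι']
  {N N' N'' : Type} [NormedAddCommGroup N] [NormedSpace ℝ N] [NormedAddCommGroup N']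
  [NormedSpace ℝ N'] [NormedAddCommGroup N''] [NormedSpace ℝ N'']
  {U V W : Type} [NormedAddCommGroup U] [InnerProductSpace ℝ U]
  [NormedAddCommGroup V] [InnerProductSpace ℝ V] [NormedAddCommGroup W] [InnerProductSpace ℝ W]
  {T : Type} [NormedAddCommGroup T] [NormedSpace ℝ T] {F : Pre I M ι} {k j l : ℕ} {O : Set T}

variable (F) in
/-- a smooth family of `Cb` functions -/
structure SB (O : Set T) (f : T → M → N) : Prop where
  cb : ∀ t ∈ O, F.Cb (f t)
  sm : ∀ k, ContDiffOn ℝ ∞ (fun t => toB F k (f t)) O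

theorem Fam.sb [T2Space M] [I.Boundaryless] {K : Set M} {f : T → M → N} (hK : IsCompact K)
    (hO : IsOpen O) (h : Fam F K O f) : SB F O f := ⟨h.cb, fun _ => h.contDiffOn hK hO⟩

theorem JS.sb [T2Space M] [I.Boundaryless] [CompactSpace M] {f : T → M → N} (hO : IsOpen O)
    (h : JS I O f) : SB F O f := h.fam.sb isCompact_univ hO

namespace SB
variable {f f' : T → M → N} {g : T → M → N'}

theorem of_map (G : ∀ k, T → B F k N) (hG : ∀ k, ContDiffOn ℝ ∞ (G k) O)
    (e : ∀ k, ∀ t ∈ O, B.fn (G k t) = f t) : SB F O f :=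
  ⟨fun t ht => e 0 t ht ▸ (G 0 t).cb, fun k => (hG k).congr fun t ht => (eq_toB (e k t ht)).symm⟩

theorem mono (h : SB F O f) {O' : Set T} (hO : O' ⊆ O) : SB F O' f :=
  ⟨fun t ht => h.cb t (hO ht), fun k => (h.sm k).mono hO⟩

theorem congr (h : SB F O f) (e : ∀ t ∈ O, f' t = f t) : SB F O f' :=
  of_map _ h.sm fun _ t ht => by rw [fn_toB (h.cb t ht), e t ht]

theorem fixed {u : M → N} (hu : F.Cb u) : SB F O fun _ => u :=
  ⟨fun _ _ => hu, fun _ => contDiffOn_const⟩

theorem par {c : T → N} (hc : ContDiffOn ℝ ∞ c O) : SB F O fun t (_ : M) => c t :=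
  of_map (fun _ t => B.const (c t)) (fun _ => B.const.contDiff.comp_contDiffOn hc) fun _ _ _ => rfl

theorem reparam {T' : Type} [NormedAddCommGroup T'] [NormedSpace ℝ T'] {φ : T' → T} {O' : Set T'}
    (h : SB F O f) (hφ : ContDiffOn ℝ ∞ φ O') (hm : MapsTo φ O' O) : SB F O' fun s => f (φ s) :=
  ⟨fun _ hs => h.cb _ (hm hs), fun k => (h.sm k).comp hφ hm⟩

theorem add (h : SB F O f) (h' : SB F O f') : SB F O fun t x => f t x + f' t x :=
  of_map _ (fun k => (h.sm k).add (h'.sm k)) fun _ t ht => by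
    rw [map_add, fn_toB (h.cb t ht), fn_toB (h'.cb t ht)]; rfl

theorem sub (h : SB F O f) (h' : SB F O f') : SB F O fun t x => f t x - f' t x :=
  of_map _ (fun k => (h.sm k).sub (h'.sm k)) fun _ t ht => by
    rw [map_sub, fn_toB (h.cb t ht), fn_toB (h'.cb t ht)]; rfl

theorem clm (L : N →L[ℝ] N') (h : SB F O f) : SB F O fun t x => L (f t x) :=
  of_map _ (fun k => (B.clm L).contDiff.comp_contDiffOn (h.sm k)) fun _ t ht => by
    simp only [comp_apply, B.fn_clm, fn_toB (h.cb t ht)]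

theorem neg (h : SB F O f) : SB F O fun t x => -f t x := h.clm (-ContinuousLinearMap.id ℝ N)

theorem bil (β : N →L[ℝ] N' →L[ℝ] N'') (h : SB F O f) (h' : SB F O g) :
    SB F O fun t x => β (f t x) (g t x) :=
  of_map _ (fun k => ((B.bil β).contDiff.comp_contDiffOn (h.sm k)).clm_apply (h'.sm k))
    fun _ t ht => by simp only [comp_apply, B.fn_bil, fn_toB (h.cb t ht), fn_toB (h'.cb t ht)]

theorem smul {c : T → M → ℝ} (hc : SB F O c) (h : SB F O f) : SB F O fun t x => c t x • f t x :=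
  bil (ContinuousLinearMap.lsmul ℝ ℝ) hc h

theorem mul {𝔸 : Type} [NormedRing 𝔸] [NormedAlgebra ℝ 𝔸] {u v : T → M → 𝔸} (hu : SB F O u)
    (hv : SB F O v) : SB F O fun t x => u t x * v t x := bil (ContinuousLinearMap.mul ℝ 𝔸) hu hv

theorem app {A : T → M → N →L[ℝ] N'} (hA : SB F O A) (h : SB F O f) :
    SB F O fun t x => A t x (f t x) := bil (ContinuousLinearMap.id ℝ (N →L[ℝ] N')) hA h

theorem comp {A : T → M → N' →L[ℝ] N''} {A' : T → M → N →L[ℝ] N'} (hA : SB F O A)
    (hA' : SB F O A') : SB F O fun t x => (A t x).comp (A' t x) :=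
  bil (ContinuousLinearMap.compL ℝ N N' N'') hA hA'

theorem D (h : SB F O f) (a : ι) : SB F O fun t => F.D a (f t) :=
  of_map _ (fun k => (B.D a).contDiff.comp_contDiffOn (h.sm (k + 1))) fun _ t ht => by
    simp only [comp_apply, B.fn_D, fn_toB (h.cb t ht)]

theorem fsum {κ : Type*} (s : Finset κ) {u : κ → T → M → N} (h : ∀ i ∈ s, SB F O (u i)) :
    SB F O fun t x => ∑ i ∈ s, u i t x :=
  of_map _ (fun k => ContDiffOn.sum fun i hi => (h i hi).sm k) fun _ t ht => by
    rw [map_sum]; funext x; rw [Finset.sum_apply]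
    exact Finset.sum_congr rfl fun i hi => by rw [fn_toB ((h i hi).cb t ht)]

theorem sum {κ : Type*} [Fintype κ] {u : κ → T → M → N} (h : ∀ i, SB F O (u i)) :
    SB F O fun t x => ∑ i, u i t x := fsum _ fun i _ => h i

theorem ev (h : SB F O f) (x : M) : ContDiffOn ℝ ∞ (fun t => f t x) O :=
  ((B.ev x).contDiff.comp_contDiffOn (h.sm 0)).congr fun t ht => by
    simp only [comp_apply, B.ev_apply, fn_toB (h.cb t ht)]

/-- locally uniform bounds -/
theorem bound (h : SB F O f) (k : ℕ) {t : T} (ht : t ∈ O) :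
    ∃ C, ∀ᶠ s in 𝓝[O] t, F.CB k (f s) C := by
  refine ⟨‖toB F k (f t)‖ + 1, ?_⟩
  filter_upwards [((h.sm k).continuousOn t ht).norm.eventually_le_const (lt_add_one _),
    self_mem_nhdsWithin] with s hs hsO
  rw [← fn_toB (k := k) (h.cb s hsO)]
  exact (B.norm_le (by positivity)).1 hs

end SB

variable [T2Space M] [BorelSpace M] [SecondCountableTopology M]
  {p : M → V →L[ℝ] V} {q : M → W →L[ℝ] W} {r : M → U →L[ℝ] U}

variable (F k p) in
/-- `mulH` as a continuous linear map of the coefficient -/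
def mulB : B F k (V →L[ℝ] W) →L[ℝ] F.H k p →L[ℝ] F.H k (triv M W) :=
  LinearMap.mkContinuous
    { toFun := fun f => F.mulH k p (triv M W) (B.fn f)
      map_add' := fun f g => by rw [map_add, mulH_add f.cb (Maps.triv _) g.cb (Maps.triv _)]
      map_smul' := fun c f => by rw [map_smul, mulH_smul c f.cb (Maps.triv _)]; rfl } (cK ι k)
    fun f => by simpa using norm_mulH_le (p := p) f.sm f.CB (Maps.triv _)

theorem mulB_apply (f : B F k (V →L[ℝ] W)) : mulB F k p f = F.mulH k p (triv M W) (B.fn f) := rfl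

variable (F k q) in
/-- the projection onto the bundle `q` -/
abbrev prH : F.H k (triv M W) →L[ℝ] F.H k q := F.mulH k (triv M W) q q

theorem prH_mulH (hq : F.Cb q) (hi : ∀ x v, q x (q x v) = q x v) {f : M → V →L[ℝ] W} (hf : F.Cb f)
    (hm : Maps p q f) : F.mulH k p q f = prH F k q ∘L F.mulH k p (triv M W) f :=
  ContinuousLinearMap.ext fun x => by
    rw [ContinuousLinearMap.comp_apply, ← fg_mulH hf hm, proj_fg hq hi]

theorem SB.mulH {f : T → M → V →L[ℝ] W} (h : SB F O f) (hq : F.Cb q)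
    (hi : ∀ x v, q x (q x v) = q x v) (hm : ∀ t ∈ O, Maps p q (f t)) :
    ContDiffOn ℝ ∞ (fun t => F.mulH k p q (f t)) O :=
  ((contDiffOn_const (c := prH F k q)).clm_comp
    ((mulB F k p).contDiff.comp_contDiffOn (h.sm k))).congr fun t ht => by
      rw [prH_mulH hq hi (h.cb t ht) (hm t ht), comp_apply, mulB_apply, fn_toB (h.cb t ht)]

theorem SB.smulH {f : T → M → ℝ} (h : SB F O f) (hp : F.Cb p) (hi : ∀ x v, p x (p x v) = p x v) :
    ContDiffOn ℝ ∞ (fun t => smulH F k p (f t)) O :=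
  (h.smul (SB.fixed (Cb_const (ContinuousLinearMap.id ℝ V)))).mulH hp hi
    fun _ _ x v hv => by simp [hv]

theorem opH_eq' {σ : ι → M → V →L[ℝ] W} {C : M → V →L[ℝ] W} (hσ : ∀ a, F.Cb (σ a)) (hC : F.Cb C)
    (hq : ∀ a x v, q x (σ a x v) = σ a x v) (hm : Maps p q C) : F.opH k p q σ C =
      ∑ a, F.mulH k (triv M V) q (σ a) ∘L DH F k p a + F.mulH k p q C ∘L F.incl (k + 1) k p :=
  (rep_opH hσ hC hq hm).unique (RepT_add (RepT_sum Finset.univ fun a _ =>
    RepT_comp (rep_mulH (hσ a) (Maps.of_left (hq a))) (rep_DH a))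
    (RepT_comp (rep_mulH hC hm) (rep_incl k.le_succ)))

theorem SB.opH {σ : ι → T → M → V →L[ℝ] W} {C : T → M → V →L[ℝ] W} (hσ : ∀ a, SB F O (σ a))
    (hC : SB F O C) (hq : F.Cb q) (hi : ∀ x v, q x (q x v) = q x v)
    (hqσ : ∀ t ∈ O, ∀ a x v, q x (σ a t x v) = σ a t x v) (hm : ∀ t ∈ O, Maps p q (C t)) :
    ContDiffOn ℝ ∞ (fun t => F.opH k p q (fun a => σ a t) (C t)) O :=
  ((ContDiffOn.sum fun a _ => ((hσ a).mulH hq hi fun t ht =>
      Maps.of_left (p := triv M V) (hqσ t ht a)).clm_comp (contDiffOn_const (c := DH F k p a))).add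
    ((hC.mulH hq hi hm).clm_comp (contDiffOn_const (c := F.incl (k + 1) k p)))).congr
    fun t ht => opH_eq' (fun a => (hσ a).cb t ht) (hC.cb t ht) (hqσ t ht) (hm t ht)

/-- `bilH` as a continuous linear map of the coefficient -/
def bilB {S : ℝ} (hS : Sup F S) (h : Lev k j l) (p : M → V →L[ℝ] V) (q : M → W →L[ℝ] W) :
    B F k (V →L[ℝ] W →L[ℝ] U) →L[ℝ] F.H k p →L[ℝ] F.H j q →L[ℝ] F.H l (triv M U) :=
  LinearMap.mkContinuous
    { toFun := fun f => F.bilH k j p q (triv M U) l (B.fn f)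
      map_add' := fun f g => clm_ext fun u => RepT_eq
        (Rep₂_left (rep_bilH hS h (f + g).cb (Maps₂.triv _)) u)
        (RepT_add (Rep₂_left (rep_bilH hS h f.cb (Maps₂.triv _)) u)
          (Rep₂_left (rep_bilH hS h g.cb (Maps₂.triv _)) u)) fun _ => rfl
      map_smul' := fun c f => clm_ext fun u => RepT_eq
        (Rep₂_left (rep_bilH hS h (c • f).cb (Maps₂.triv _)) u)
        (RepT_smul c (Rep₂_left (rep_bilH hS h f.cb (Maps₂.triv _)) u)) fun _ => rfl }
    (√(2 * |S|) * cK ι l * cK ι k)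
    fun f => by simpa [cB] using (rep_bilH' (p := p) (q := q) hS h f.sm f.CB (Maps₂.triv _)).2

theorem SB.bilH {S : ℝ} (hS : Sup F S) (hl : Lev k j l) {β : T → M → V →L[ℝ] W →L[ℝ] U}
    (h : SB F O β) (hr : F.Cb r) (hi : ∀ x v, r x (r x v) = r x v)
    (hm : ∀ t ∈ O, Maps₂ p q r (β t)) : ContDiffOn ℝ ∞ (fun t => F.bilH k j p q r l (β t)) O := by
  refine ((contDiffOn_const (c := ContinuousLinearMap.compL ℝ (F.H j q) _ _ (prH F l r))).clm_comp
    ((bilB hS hl p q).contDiff.comp_contDiffOn (h.sm k))).congr fun t ht => clm_ext fun u => ?_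
  refine RepT_eq (Rep₂_left (rep_bilH hS hl (h.cb t ht) (hm t ht)) u)
    (RepT_comp (rep_mulH hr (Maps.of_left hi))
      (Rep₂_left (rep_bilH hS hl (toB F k (β t)).cb (Maps₂.triv _)) u)) fun v => funext fun x => ?_
  rw [fn_toB (h.cb t ht)]
  exact (hm t ht x _ _ (u.2.2.2 x) (v.2.2.2 x)).symm

/-- families of sections with support where `χ = 1` -/
theorem SB.toH {s : T → Sec I p} (h : SB F O fun t => (s t).1) (hp : F.Cb p)
    (hi : ∀ x v, p x (p x v) = p x v) {χ : M → ℝ} (hχ : Sm I χ) (hc : HasCompactSupport χ)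
    (h1 : ∀ t ∈ O, ∀ x, χ x • (s t).1 x = (s t).1 x) :
    ContDiffOn ℝ ∞ (fun t => F.toH k p (s t)) O := by
  have h2 := h.clm (ContinuousLinearMap.smulRightL ℝ ℝ V (ContinuousLinearMap.id ℝ ℝ))
  have hm : ∀ t ∈ O, Maps (triv M ℝ) p fun x =>
      ContinuousLinearMap.smulRightL ℝ ℝ V (ContinuousLinearMap.id ℝ ℝ) ((s t).1 x) :=
    fun t _ x c _ => by simp [(s t).2.2.2 x]
  refine ((h2.mulH hp hi hm).clm_apply
    (contDiffOn_const (c := F.toH k (triv M ℝ) ⟨χ, mem_triv hχ hc⟩))).congr fun t ht => ?_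
  exact (RepT_toH' (rep_mulH (h2.cb t ht) (hm t ht)) ⟨χ, mem_triv hχ hc⟩ (s t)
    (funext fun x => h1 t ht x)).symm

theorem SB.toH_compact [CompactSpace M] {s : T → Sec I p} (h : SB F O fun t => (s t).1)
    (hp : F.Cb p) (hi : ∀ x v, p x (p x v) = p x v) :
    ContDiffOn ℝ ∞ (fun t => F.toH k p (s t)) O :=
  h.toH hp hi (χ := fun _ => 1) contMDiff_const (HasCompactSupport.of_compactSpace _)
    fun _ _ _ => one_smul _ _

/-! ### families of frames -/

omit [T2Space M] [BorelSpace M] [SecondCountableTopology M] in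
/-- the frame of `F'` in terms of the frame of `F` -/
def Mix (F : Pre I M ι) (F' : Pre I M ι') (A : ι' → ι → M → ℝ) : Prop :=
  ∀ a x, F'.e a x = ∑ b, A a b x • F.e b x

section mix
omit [T2Space M] [BorelSpace M] [SecondCountableTopology M]
variable {F' : Pre I M ι'} {A : ι' → ι → M → ℝ}

theorem Mix.D (h : Mix F F' A) (a : ι') (u : M → N) :
    F'.D a u = fun x => ∑ b, A a b x • F.D b u x := by
  funext x
  simp only [D_def, dv, h a x, map_sum, map_smul]
  rfl

theorem Mix.op (h : Mix F F' A) (σ : ι' → M → V →L[ℝ] W) (C : M → V →L[ℝ] W) :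
    F'.op σ C = F.op (fun b x => ∑ a, A a b x • σ a x) C := by
  funext u x
  simp only [Pre.op, h.D, map_sum, map_smul, sum_apply, smul_apply]
  rw [Finset.sum_comm]

theorem SB.D' {G : T → Pre I M ι'} {A : ι' → ι → T → M → ℝ} {f : T → M → N}
    (hG : ∀ t ∈ O, Mix F (G t) fun a b => A a b t) (hA : ∀ a b, SB F O (A a b)) (h : SB F O f)
    (a : ι') : SB F O fun t => (G t).D a (f t) :=
  (SB.sum fun b => (hA a b).smul (h.D b)).congr fun t ht => (hG t ht).D a (f t)

end mix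

/-- first order operators of a family of frames, on the fixed scale of `F` -/
theorem SB.lift_op {G : T → Pre I M ι'} {A : ι' → ι → T → M → ℝ}
    (hG : ∀ t ∈ O, Mix F (G t) fun a b => A a b t) (hA : ∀ a b, SB F O (A a b))
    {σ : ι' → T → M → V →L[ℝ] W} {C : T → M → V →L[ℝ] W} (hσ : ∀ a, SB F O (σ a))
    (hC : SB F O C) (hq : F.Cb q) (hi : ∀ x v, q x (q x v) = q x v)
    (hqσ : ∀ t ∈ O, ∀ a x v, q x (σ a t x v) = σ a t x v) (hm : ∀ t ∈ O, Maps p q (C t)) :
    ContDiffOn ℝ ∞ (fun t => F.lift (k + 1) k p q ((G t).op (fun a => σ a t) (C t))) O :=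
  (SB.opH (σ := fun b t x => ∑ a, A a b t x • σ a t x)
    (fun b => SB.sum fun a => (hA a b).smul (hσ a)) hC hq hi
    (fun t ht b x v => by simp [hqσ t ht]) hm).congr fun t ht => by rw [(hG t ht).op]; rfl

theorem Mix.rep_op {F' : Pre I M ι'} {A : ι' → ι → M → ℝ} (h : Mix F F' A)
    (hA : ∀ a b, F.Cb (A a b)) {σ : ι' → M → V →L[ℝ] W} {C : M → V →L[ℝ] W}
    (hσ : ∀ a, F.Cb (σ a)) (hC : F.Cb C) (hq : ∀ a x v, q x (σ a x v) = σ a x v)
    (hm : Maps p q C) : F.Rep (F.lift (k + 1) k p q (F'.op σ C)) (F'.op σ C) := by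
  rw [h.op]
  exact rep_opH (fun b => Cb_sum _ fun a _ => Cb_smul (hA a b) (hσ a)) hC
    (fun b x v => by simp [hq]) hm

end Crest.Agent.X212.Prm93
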