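import Crest.Agent.X212.Prm93.H
import Crest.Agent.X212.Met55.Fr

/-!
# X212 / Prm93 / Chg (helper93): change of frame

`Cmp F F'` : the frames are combinations of each other with `Cb` coefficients and the measures are
comparable; automatic on compact `M`.  `chg : F.H k p ≃L F'.H k p` intertwines every `Rep`.
-/

set_option autoImplicit false
set_option linter.unusedSectionVars false
noncomputable section
open scoped Manifold ContDiff Topology InnerProductSpace NNReal ENNReal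
open MeasureTheory Set Filter Function

namespace Crest.Agent.X212.Prm93
open An An.Pre Sob92

variable {E : Type} [NormedAddCommGroup E] [NormedSpace ℝ E] [FiniteDimensional ℝ E]
  [MeasurableSpace E] [BorelSpace E]
  {HM : Type} [TopologicalSpace HM] {I : ModelWithCorners ℝ E HM}
  {M : Type} [TopologicalSpace M] [ChartedSpace HM M] [IsManifold I ∞ M]
  [MeasurableSpace M] {ι ι' : Type} [Fintype ι] [Fintype ι']
  {N : Type} [NormedAddCommGroup N] [NormedSpace ℝ N]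
  {U V W : Type} [NormedAddCommGroup U] [InnerProductSpace ℝ U]
  [NormedAddCommGroup V] [InnerProductSpace ℝ V] [NormedAddCommGroup W] [InnerProductSpace ℝ W]
  {F : Pre I M ι} {F' : Pre I M ι'} {A : ι' → ι → M → ℝ} {k j l : ℕ}

/-- the constant in `Mix.CB` -/
def cM (n : ℕ) (C : ℝ) : ℕ → ℝ
  | 0 => 1
  | k + 1 => 1 + cM n C k * (n * (2 ^ (k + 1) * |C|))

theorem cM_one_le (n : ℕ) (C : ℝ) : ∀ k, 1 ≤ cM n C k
  | 0 => le_rfl
  | k + 1 => by
    have := cM_one_le n C k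
    rw [cM]
    exact le_add_of_nonneg_right (by positivity)

theorem Mix.CB_D (h : Mix F F' A) (hA : ∀ a b, Sm I (A a b)) {C D : ℝ}
    (hC : ∀ a b, F.CB k (A a b) C) {f : M → N} (hf : Sm I f) (hD : F.CB (k + 1) f D) (a : ι') :
    F.CB k (F'.D a f) (Fintype.card ι * (2 ^ (k + 1) * |C|) * |D|) := by
  rw [h.D]
  have h1 := CB_sum (F := F) (k := k) Finset.univ (f := fun b x => A a b x • F.D b f x)
    (A := fun _ => 2 ^ (k + 1) * |C| * |D|) (fun b _ => (hA a b).smul (F.sm_D hf b)) fun b _ =>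
      CB_mono (CB_bil (ContinuousLinearMap.lsmul ℝ ℝ) (hA a b) (F.sm_D hf b) (hC a b)
        (Sob92.CB_D hD b))
        (by
          have := ContinuousLinearMap.opNorm_lsmul_le (𝕜 := ℝ) (R := ℝ) (E := N)
          calc _ ≤ 2 ^ (k + 1) * 1 * |C| * |D| := by gcongr
            _ = _ := by ring)
  simpa [mul_assoc] using h1

theorem Mix.CB (h : Mix F F' A) (hA : ∀ a b, Sm I (A a b)) {C : ℝ} (k : ℕ) :
    (∀ a b, F.CB k (A a b) C) → ∀ {f : M → N} {D : ℝ}, Sm I f → F.CB k f D →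
      F'.CB k f (cM (Fintype.card ι) C k * |D|) := by
  induction k with
  | zero =>
    intro _ f D _ hD
    exact CB_zero.2 fun x => by simpa [cM] using (CB_bound hD x).trans (le_abs_self D)
  | succ k ih =>
    intro hC f D hf hD
    have h0 := cM_one_le (Fintype.card ι) C k
    have hC' := fun a b => CB_of_le (hC a b) k.le_succ
    refine CB_succ.2 ⟨fun x => ((CB_bound hD x).trans (le_abs_self D)).trans
      (le_mul_of_one_le_left (abs_nonneg D) (cM_one_le _ C _)), fun a =>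
      CB_mono (ih hC' (F'.sm_D hf a) (h.CB_D hA hC' hf hD a)) ?_⟩
    rw [abs_of_nonneg (by positivity), cM]
    nlinarith [abs_nonneg D]

theorem Cb_unif {κ : Type} [Fintype κ] {f : κ → M → N} (h : ∀ i, F.Cb (f i)) :
    ∃ C, ∀ i, F.CBs (f i) C := by
  choose C hC using h
  refine ⟨fun k => ∑ i, |C i k|, fun i => ⟨(hC i).1, fun k => CB_mono (CB_abs ((hC i).2 k)) ?_⟩⟩
  exact Finset.single_le_sum (f := fun i => |C i k|) (fun _ _ => abs_nonneg _) (Finset.mem_univ i)

theorem Mix.Cb (h : Mix F F' A) (hA : ∀ a b, F.Cb (A a b)) {f : M → N} (hf : F.Cb f) : F'.Cb f := by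
  obtain ⟨C, hC⟩ := Cb_unif (f := fun s : ι' × ι => A s.1 s.2) fun s => hA s.1 s.2
  obtain ⟨D, hD⟩ := hf
  exact ⟨_, hD.1, fun k => h.CB (fun a b => (hC (a, b)).1) k (fun a b => (hC (a, b)).2 k) hD.1
    (hD.2 k)⟩

/-- the identity as a continuous map of the spaces `B` -/
def Mix.toB (h : Mix F F' A) (hA : ∀ a b, F.Cb (A a b)) (k : ℕ) : B F k N →L[ℝ] B F' k N :=
  LinearMap.mkContinuousOfExistsBound
    { toFun := fun f => B.mk k (B.fn f) (h.Cb hA f.cb)
      map_add' := fun _ _ => rfl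
      map_smul' := fun _ _ => rfl } (by
    obtain ⟨C, hC⟩ := Cb_unif (f := fun s : ι' × ι => A s.1 s.2) fun s => hA s.1 s.2
    have := cM_one_le (Fintype.card ι) (C k) k
    exact ⟨cM (Fintype.card ι) (C k) k, fun f => (B.norm_le (by positivity)).2 (by
      simpa using h.CB (fun a b => (hC (a, b)).1) k (fun a b => (hC (a, b)).2 k) f.sm f.CB)⟩)

theorem Mix.SB {T : Type} [NormedAddCommGroup T] [NormedSpace ℝ T] {O : Set T} {f : T → M → N}
    (h : Mix F F' A) (hA : ∀ a b, F.Cb (A a b)) (hf : SB F O f) : SB F' O f :=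
  SB.of_map _ (fun k => (h.toB hA k).contDiff.comp_contDiffOn (hf.sm k))
    fun _ t ht => fn_toB (hf.cb t ht)

variable [T2Space M] [BorelSpace M] [SecondCountableTopology M]
  {p : M → V →L[ℝ] V} {q : M → W →L[ℝ] W} {r : M → U →L[ℝ] U}

/-- the constant in `Mix.nrm` -/
def cN (ι ι' : Type) [Fintype ι] [Fintype ι'] (c C : ℝ) : ℕ → ℝ
  | 0 => √c
  | k + 1 => √c + Fintype.card ι' * (cN ι ι' c C k * (Fintype.card ι * (cK ι k * |C|)))

omit [T2Space M] [BorelSpace M] [SecondCountableTopology M] in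
theorem cN_nonneg (c C : ℝ) : ∀ k, 0 ≤ cN ι ι' c C k
  | 0 => Real.sqrt_nonneg c
  | k + 1 => by
    have := cN_nonneg c C k
    have := cK_nonneg (ι := ι) k
    rw [cN]; positivity

omit [SecondCountableTopology M] in
theorem nrm_zero_le {c : ℝ≥0} (hμ : F'.μ ≤ c • F.μ) {u : M → V} (hu : Sm I u)
    (hc : HasCompactSupport u) : F'.nrm 0 u ≤ √c * F.nrm 0 u := by
  rw [Pre.nrm, Pre.nrm, ← Real.sqrt_mul c.coe_nonneg]
  refine Real.sqrt_le_sqrt ?_
  have := integral_mono_measure (f := fun x => ⟪u x, u x⟫_ℝ) hμ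
    (Eventually.of_forall fun _ => real_inner_self_nonneg)
    ((F.integrable_inner hu.continuous hc hu.continuous).smul_measure_nnreal)
  rwa [integral_smul_nnreal_measure] at this

omit [T2Space M] [BorelSpace M] [SecondCountableTopology M] in
theorem nrm_succ_le (k : ℕ) (u : M → V) :
    F.nrm (k + 1) u ≤ F.nrm 0 u + ∑ a, F.nrm k (F.D a u) := by
  have h0 := nrm_nonneg (F := F) 0 u
  have h1 : ∀ a ∈ Finset.univ, 0 ≤ F.nrm k (F.D a u) := fun a _ => nrm_nonneg k _
  have h2 := Finset.sum_nonneg h1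
  refine (abs_le_of_sq_le_sq' ?_ (by positivity)).2
  rw [nrm_succ_sq]
  nlinarith [Finset.sum_sq_le_sq_sum_of_nonneg h1]

theorem Mix.nrm (h : Mix F F' A) (hA : ∀ a b, Sm I (A a b)) {c : ℝ≥0} (hμ : F'.μ ≤ c • F.μ)
    {C : ℝ} (k : ℕ) : (∀ a b, F.CB k (A a b) C) → ∀ {u : M → V}, Sm I u → HasCompactSupport u →
      F'.nrm k u ≤ cN ι ι' c C k * F.nrm k u := by
  induction k with
  | zero => exact fun _ _ hu hc => nrm_zero_le hμ hu hc
  | succ k ih =>
    intro hC u hu hc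
    have hC' := fun a b => CB_of_le (hC a b) k.le_succ
    have h0 := cN_nonneg (ι := ι) (ι' := ι') c C k
    have hK := cK_nonneg (ι := ι) k
    have h1 : ∀ a, F.nrm k (F'.D a u) ≤ Fintype.card ι * (cK ι k * |C|) * F.nrm (k + 1) u := by
      intro a
      rw [h.D]
      refine (nrm_sum_le Finset.univ k (u := fun b x => A a b x • F.D b u x)
        (fun b _ => (hA a b).smul (F.sm_D hu b))
        fun b _ => (F.hcs_D hc b).mono fun x hx h => hx (by simp [h])).trans ?_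
      refine (Finset.sum_le_sum fun b _ => (nrm_smul (hA a b) (F.sm_D hu b) (hC' a b)
        (FL_of_hcs k (F.sm_D hu b) (F.hcs_D hc b))).trans
        (mul_le_mul_of_nonneg_left (nrm_D_le k u b) (by positivity))).trans (le_of_eq ?_)
      simp [mul_assoc]
    have h2 := (nrm_zero_le hμ hu hc).trans
      (mul_le_mul_of_nonneg_left (nrm_mono (Nat.zero_le (k + 1)) u) (Real.sqrt_nonneg _))
    have h3 := Finset.sum_le_sum fun a (_ : a ∈ Finset.univ) =>
      (ih hC' (F'.sm_D hu a) (F'.hcs_D hc a)).trans (mul_le_mul_of_nonneg_left (h1 a) h0)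
    rw [Finset.sum_const, Finset.card_univ, nsmul_eq_mul] at h3
    refine (nrm_succ_le k u).trans ((add_le_add h2 h3).trans (le_of_eq ?_))
    rw [cN]; ring

theorem Mix.rep_id (h : Mix F F' A) (hA : ∀ a b, Sm I (A a b)) {c : ℝ≥0} (hμ : F'.μ ≤ c • F.μ)
    {C : ℝ} (hC : ∀ a b, F.CB k (A a b) C) :
    F.RepT F' (F.liftT k k p F' p id) id ∧ ‖F.liftT k k p F' p id‖ ≤ cN ι ι' c C k :=
  rep_liftT (fun _ hu => hu) (fun _ _ _ _ => rfl) (fun _ _ _ => rfl) (cN_nonneg c C k)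
    fun _ hu => h.nrm hA hμ k hC hu.1 hu.2.1

/-- `F'` is dominated by `F` -/
def Dom (F : Pre I M ι) (F' : Pre I M ι') : Prop :=
  (∃ A, Mix F F' A ∧ ∀ a b, F.Cb (A a b)) ∧ ∃ c : ℝ≥0, F'.μ ≤ c • F.μ

/-- comparable frames -/
def Cmp (F : Pre I M ι) (F' : Pre I M ι') : Prop := Dom F F' ∧ Dom F' F

omit [T2Space M] [BorelSpace M] [SecondCountableTopology M] in
theorem Cmp.symm (h : Cmp F F') : Cmp F' F := ⟨h.2, h.1⟩

omit [T2Space M] [BorelSpace M] [SecondCountableTopology M] in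
theorem Cmp.Cb_iff (h : Cmp F F') {f : M → N} : F.Cb f ↔ F'.Cb f :=
  let ⟨⟨⟨_, h1, h2⟩, _⟩, ⟨_, h3, h4⟩, _⟩ := h; ⟨h1.Cb h2, h3.Cb h4⟩

theorem Dom.rep (h : Dom F F') : F.RepT F' (F.liftT k k p F' p id) id := by
  obtain ⟨⟨A, h1, hA⟩, c, hc⟩ := h
  obtain ⟨C, hC⟩ := Cb_unif (f := fun s : ι' × ι => A s.1 s.2) fun s => hA s.1 s.2
  exact (h1.rep_id (fun a b => (hC (a, b)).1) hc fun a b => (hC (a, b)).2 k).1

variable (k p) in
/-- **change of frame** -/
def chg (h : Cmp F F') : F.H k p ≃L[ℝ] F'.H k p :=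
  ContinuousLinearEquiv.equivOfInverse (F.liftT k k p F' p id) (F'.liftT k k p F p id)
    (fun x => DFunLike.congr_fun ((RepT_comp h.2.rep h.1.rep).unique Rep_id) x)
    (fun x => DFunLike.congr_fun ((RepT_comp h.1.rep h.2.rep).unique Rep_id) x)

theorem rep_chg (h : Cmp F F') : F.RepT F' (chg k p h : F.H k p →L[ℝ] F'.H k p) id := h.1.rep

theorem chg_symm (h : Cmp F F') : (chg k p h).symm = chg k p h.symm := rfl

theorem chg_toH (h : Cmp F F') (u : Sec I p) : chg k p h (F.toH k p u) = F'.toH k p u :=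
  RepT_toH (rep_chg h) u

/-- an operator represented in both scales commutes with the change of frame -/
theorem chg_rep (h : Cmp F F') {T : (M → V) → M → W} {L : F.H k p →L[ℝ] F.H j q}
    {L' : F'.H k p →L[ℝ] F'.H j q} (hL : F.Rep L T) (hL' : F'.Rep L' T) (x : F.H k p) :
    chg j q h (L x) = L' (chg k p h x) :=
  DFunLike.congr_fun (RepT_eq (RepT_comp (rep_chg h) hL) (RepT_comp hL' (rep_chg h))
    fun _ => rfl) x

theorem rep_conj (h : Cmp F F') {T : (M → V) → M → W} {L' : F'.H k p →L[ℝ] F'.H j q}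
    (hL' : F'.Rep L' T) : F.Rep (((chg j q h).symm : F'.H j q →L[ℝ] F.H j q) ∘L L' ∘L
      (chg k p h : F.H k p →L[ℝ] F'.H k p)) T :=
  RepT_comp (rep_chg h.symm) (RepT_comp hL' (rep_chg h))

theorem lift_conj (h : Cmp F F') {T : (M → V) → M → W} {L' : F'.H k p →L[ℝ] F'.H j q}
    (hL' : F'.Rep L' T) : F.lift k j p q T = ((chg j q h).symm : F'.H j q →L[ℝ] F.H j q) ∘L L' ∘L
      (chg k p h : F.H k p →L[ℝ] F'.H k p) := (rep_conj h hL').liftT_eq

theorem chg_incl (h : Cmp F F') (hj : j ≤ k) (x : F.H k p) :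
    chg j p h (F.incl k j p x) = F'.incl k j p (chg k p h x) :=
  chg_rep h (rep_incl hj) (rep_incl hj) x

theorem chg_rep₂ (h : Cmp F F') {T : (M → V) → (M → W) → M → U}
    {L : F.H k p →L[ℝ] F.H j q →L[ℝ] F.H l r} {L' : F'.H k p →L[ℝ] F'.H j q →L[ℝ] F'.H l r}
    (hL : F.Rep₂ L T) (hL' : F'.Rep₂ L' T) (x : F.H k p) (y : F.H j q) :
    chg l r h (L x y) = L' (chg k p h x) (chg j q h y) := by
  induction x, y using H_ind₂ with
  | hP => exact isClosed_eq (by fun_prop) (by fun_prop)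
  | h u v => rw [chg_toH, chg_toH, Rep₂_toH hL, Rep₂_toH hL', chg_toH]

/-! ### compact manifolds -/

omit [T2Space M] [BorelSpace M] [SecondCountableTopology M] in
theorem mix_fT (F : Pre I M ι) (F' : Pre I M ι') :
    Mix F F' (fun a b x => Met55.fT F.e (F'.e a) x b) ∧
      ∀ a b, Sm I fun x => Met55.fT F.e (F'.e a) x b :=
  ⟨fun a x => (Met55.sum_fT (Met55.pre_sp F x) (F'.e a)).symm,
    fun a b x => Met55.sm_fT (fun c => F.sm c x) (Met55.pre_sp F x) (F'.sm a x) b⟩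

omit [SecondCountableTopology M] in
theorem dens_apply [I.Boundaryless] {μ : Measure M} {x₀ : M} {O : Set M} {ρ : E → ℝ}
    (h : HasDens I μ x₀ O ρ) {s : Set M} (hs : s ⊆ O) (hm : MeasurableSet (extChartAt I x₀ '' s)) :
    μ s = ∫⁻ y in extChartAt I x₀ '' s, ENNReal.ofReal (ρ y) ∂leb E := by
  have h1 := congrArg (fun ν : Measure E => ν (extChartAt I x₀ '' s)) h.2.2.2
  rw [Measure.map_apply_of_aemeasurable (Met55.dens_aem h) hm,
    Measure.restrict_apply' h.1.measurableSet, withDensity_apply _ hm,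
    Measure.restrict_restrict hm, inter_eq_left.2 (image_mono hs)] at h1
  rw [← h1]
  congr 1
  refine Subset.antisymm (fun x hx => ⟨⟨x, hx, rfl⟩, hs hx⟩) ?_
  rintro x ⟨⟨z, hz, e⟩, hx⟩
  exact (extChartAt I x₀).injOn (h.2.2.1 (hs hz)) (h.2.2.1 hx) e ▸ hz

omit [SecondCountableTopology M] in
theorem meas_img [I.Boundaryless] {x₀ : M} {O s : Set M} (hO : IsOpen O)
    (hs : O ⊆ (extChartAt I x₀).source) (hm : MeasurableSet s) :
    MeasurableSet (extChartAt I x₀ '' (s ∩ O)) := by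
  classical
  have h1 := (Met55.isOpen_img hO hs).measurableSet
  have h2 : ContinuousOn (extChartAt I x₀).symm (extChartAt I x₀ '' O) :=
    (continuousOn_extChartAt_symm x₀).mono (by
      rintro _ ⟨x, hx, rfl⟩; exact (extChartAt I x₀).map_source (hs hx))
  have h3 := (h2.measurable_piecewise (continuousOn_const (c := x₀)) h1) hm
  convert h3.inter h1 using 1
  ext y
  constructor
  · rintro ⟨x, hx, rfl⟩
    have : extChartAt I x₀ x ∈ extChartAt I x₀ '' O := ⟨x, hx.2, rfl⟩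
    refine ⟨?_, this⟩
    rw [mem_preimage, piecewise_eq_of_mem _ _ _ this, (extChartAt I x₀).left_inv (hs hx.2)]
    exact hx.1
  · rintro ⟨h4, x, hx, rfl⟩
    rw [mem_preimage, piecewise_eq_of_mem _ _ _ (mem_image_of_mem _ hx),
      (extChartAt I x₀).left_inv (hs hx)] at h4
    exact ⟨x, ⟨h4, hx⟩, rfl⟩

omit [SecondCountableTopology M] in
theorem meas_le_loc [I.Boundaryless] (F : Pre I M ι) (F' : Pre I M ι') (x₀ : M) :
    ∃ S ∈ 𝓝 x₀, ∃ c : ℝ≥0, F'.μ.restrict S ≤ c • F.μ := by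
  obtain ⟨O, ρ, h, hs, hp⟩ := F.dens x₀
  obtain ⟨O', ρ', h', hs', -⟩ := F'.dens x₀
  set φ := extChartAt I x₀
  have c1 : ContinuousAt (fun x => ρ (φ x)) x₀ := ContinuousAt.comp (hs.continuousOn.continuousAt
    ((Met55.isOpen_img h.1 h.2.2.1).mem_nhds ⟨x₀, h.2.1, rfl⟩)) (continuousAt_extChartAt x₀)
  have c2 : ContinuousAt (fun x => ρ' (φ x)) x₀ := ContinuousAt.comp (hs'.continuousOn.continuousAt
    ((Met55.isOpen_img h'.1 h'.2.2.1).mem_nhds ⟨x₀, h'.2.1, rfl⟩)) (continuousAt_extChartAt x₀)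
  have h0 := hp _ ⟨x₀, h.2.1, rfl⟩
  set c : ℝ := |ρ' (φ x₀)| / ρ (φ x₀) + 1 with hc
  have hc0 : 0 ≤ c := by positivity
  have h1 : ∀ᶠ x in 𝓝 x₀, ρ' (φ x) < c * ρ (φ x) := c2.eventually_lt (c1.const_mul c) (by
    rw [hc, add_mul, div_mul_cancel₀ _ h0.ne']
    linarith [le_abs_self (ρ' (φ x₀))])
  obtain ⟨S, hS, hSo, hx⟩ := eventually_nhds_iff.1
    (h1.and (Eventually.and (p := fun x => x ∈ O) (q := fun x => x ∈ O') (h.1.mem_nhds h.2.1)
      (h'.1.mem_nhds h'.2.1)))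
  refine ⟨S, hSo.mem_nhds hx, ⟨c, hc0⟩, Measure.le_iff.2 fun s hm => ?_⟩
  have h2 := meas_img hSo (fun x hx => h.2.2.1 (hS x hx).2.1) hm
  rw [Measure.restrict_apply hm, dens_apply h' (fun x hx => (hS x hx.2).2.2) h2,
    Measure.coe_nnreal_smul_apply]
  refine le_trans ?_ (mul_le_mul_right (measure_mono (inter_subset_left (t := S))) _)
  rw [dens_apply h (fun x hx => (hS x hx.2).2.1) h2, ← lintegral_const_mul' _ _ ENNReal.coe_ne_top]
  refine setLIntegral_mono' h2 ?_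
  rintro _ ⟨x, hx, rfl⟩
  rw [← ENNReal.ofReal_coe_nnreal, ← ENNReal.ofReal_mul (NNReal.coe_nonneg _)]
  exact ENNReal.ofReal_le_ofReal (hS x hx.2).1.le

omit [SecondCountableTopology M] in
theorem meas_le_compact [I.Boundaryless] (F : Pre I M ι) (F' : Pre I M ι') {K : Set M}
    (hK : IsCompact K) : ∃ c : ℝ≥0, F'.μ.restrict K ≤ c • F.μ := by
  refine hK.induction_on (p := fun s => ∃ c : ℝ≥0, F'.μ.restrict s ≤ c • F.μ)
    ⟨0, by simp⟩ (fun s t hst ⟨c, hc⟩ => ⟨c, (Measure.restrict_mono_set _ hst).trans hc⟩)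
    (fun s t ⟨c, hc⟩ ⟨d, hd⟩ => ⟨c + d, (Measure.restrict_union_le s t).trans ?_⟩) fun x _ => ?_
  · rw [add_smul]; exact add_le_add hc hd
  · obtain ⟨S, hS, h⟩ := meas_le_loc F F' x
    exact ⟨S, nhdsWithin_le_nhds hS, h⟩

omit [SecondCountableTopology M] in
theorem dom_compact [I.Boundaryless] [CompactSpace M] (F : Pre I M ι) (F' : Pre I M ι') :
    Dom F F' :=
  ⟨⟨_, (mix_fT F F').1, fun a b => Cb_of_compact ((mix_fT F F').2 a b)⟩, by
    simpa using meas_le_compact F F' isCompact_univ⟩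

omit [SecondCountableTopology M] in
/-- any two frames on a closed manifold are comparable -/
theorem cmp_compact [I.Boundaryless] [CompactSpace M] (F : Pre I M ι) (F' : Pre I M ι') :
    Cmp F F' := ⟨dom_compact F F', dom_compact F' F⟩

end Crest.Agent.X212.Prm93
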